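import Crest.Agent.R27.Z.Defs
import Crest.Agent.R27.X.Main

/-! Row 27, block MAIN: the extraction (proved in `R27/X/Main`). -/

set_option autoImplicit false

namespace Crest.Agent.R27.Z

open Crest.Agent.R27.Ab

theorem stZF_of [Bd] (h : StM) : StZF O :=
  x_zf fun ε hε => (h 1 ε one_pos hε).imp fun C hC U X A h1 h2 h3 => by
    simp only [one_mul, ← mul_assoc]
    exact (Finset.sum_le_sum_of_subset_of_nonneg (fun k hk => mem_ball.2 (h3 k hk))
      fun _ _ _ => by positivity).trans (hC U X (h1.trans h2) (by linarith) h2)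

end Crest.Agent.R27.Z
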