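import Crest.Agent.R27.Z.PairB

/-!
Row 27, block MAIN (port of `R17/P`): from the pairs of columns to the energy.
-/

set_option autoImplicit false

namespace Crest.Agent.R27.Z

open scoped ComplexConjugate
open Crest.Agent.R17 (LN sj sj_false sj_true norm_sj sj_mul)
open Crest.Agent.R27.Ab

variable [Bd]

theorem Corea_prod {f g : Pr → ℝ} (hf : Summable f) (hg : Summable g) (hf0 : ∀ n, 0 ≤ f n)
    (hg0 : ∀ n, 0 ≤ g n) : HasSum (fun p : Pr × Pr => f p.1 * g p.2) ((∑' n, f n) * ∑' n, g n) :=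
  hf.hasSum.mul hg.hasSum (hf.mul_of_nonneg hg hf0 hg0)

theorem Corea_norm_le {a : O → ℂ} (ha : AdmP a) {G : O → O → ℂ} {B : O → O → ℝ}
    (hG : ∀ n n', Osq n → Osq n' → ‖G n n'‖ ≤ B n n') (p : Pr × Pr) :
    ‖a p.1 * conj (a p.2) * G p.1 p.2‖ ≤ ‖a p.1‖ * ‖a p.2‖ * B p.1 p.2 := by
  rw [norm_mul, norm_mul, Complex.norm_conj]
  by_cases h1 : a p.1 = 0
  · simp [h1]
  by_cases h2 : a p.2 = 0
  · simp [h2]
  exact mul_le_mul_of_nonneg_left (hG _ _ (ha.osq p.1.2 h1) (ha.osq p.2.2 h2)) (by positivity)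

theorem Corea_norm_le' {a : O → ℂ} (ha : AdmP a) (hc : OneCls a) {G : O → O → ℂ} {B : O → O → ℝ}
    (hG : ∀ n n', Osq n → Osq n' → cls n = cls n' → ‖G n n'‖ ≤ B n n') (p : Pr × Pr) :
    ‖a p.1 * conj (a p.2) * G p.1 p.2‖ ≤ ‖a p.1‖ * ‖a p.2‖ * B p.1 p.2 := by
  rw [norm_mul, norm_mul, Complex.norm_conj]
  by_cases h1 : a p.1 = 0
  · simp [h1]
  by_cases h2 : a p.2 = 0
  · simp [h2]
  exact mul_le_mul_of_nonneg_left (hG _ _ (ha.osq p.1.2 h1) (ha.osq p.2.2 h2)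
    (hc _ _ p.1.2 p.2.2 h1 h2)) (by positivity)

theorem AdmP.summable_pair {a : O → ℂ} (ha : AdmP a) {G : O → O → ℂ} {B : ℝ}
    (hG : ∀ n n', Osq n → Osq n' → ‖G n n'‖ ≤ B) :
    Summable fun p : Pr × Pr => a p.1 * conj (a p.2) * G p.1 p.2 :=
  Summable.of_norm_bounded ((Corea_prod ha.summable_norm ha.summable_norm (fun _ => norm_nonneg _)
    (fun _ => norm_nonneg _)).summable.mul_right B) (Corea_norm_le ha (B := fun _ _ => B) hG)

theorem Corea_term (K : ℝ) (k n n' : O) : ‖sx k n * conj (sx k n') * (gw K k : ℝ)‖ ≤ gw K k := by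
  rw [norm_mul, norm_mul, Complex.norm_conj, Complex.norm_real, Real.norm_of_nonneg (gw_nonneg K k)]
  exact mul_le_of_le_one_left (gw_nonneg K k)
    (mul_le_one₀ (norm_sx_le _ _) (norm_nonneg _) (norm_sx_le _ _))

theorem norm_Phi_le {K : ℝ} (hK : 0 < K) (n n' : O) : ‖Phi K n n'‖ ≤ w0 + cG * K :=
  (tsum_of_norm_bounded (summable_gw hK).hasSum fun k => Corea_term K k n n').trans (tsum_gw_le hK)

/-- `‖z‖² = z conj z`, `Summable.tsum_mul_tsum`, `Summable.tsum_comm` -/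
theorem En_eq {a : O → ℂ} (ha : AdmP a) {K : ℝ} (hK : 0 < K) :
    (En false a K : ℂ) = ∑' p : Pr × Pr, a p.1 * conj (a p.2) * Phi K p.1 p.2 := by
  have hn : ∀ k : O, Summable fun n : Pr => ‖a n * sx k n‖ := fun k =>
    Summable.of_nonneg_of_le (fun _ => norm_nonneg _) (fun n => by
      rw [norm_mul]
      exact mul_le_of_le_one_right (norm_nonneg _) (norm_sx_le _ _)) ha.summable_norm
  have h1 : ∀ k : O, ((gw K k * ‖Sp false a k‖ ^ 2 : ℝ) : ℂ) =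
      ∑' p : Pr × Pr, a p.1 * conj (a p.2) * (sx k p.1 * conj (sx k p.2) * (gw K k : ℝ)) := fun k => by
    have e1 : conj (Sp false a k) = ∑' n : Pr, conj (a n * sx k n) := Complex.conj_tsum _
    have e2 : Sp false a k = ∑' n : Pr, a n * sx k n := rfl
    rw [Complex.ofReal_mul, Complex.ofReal_pow, ← Complex.mul_conj', e1, e2,
      tsum_mul_tsum_of_summable_norm (hn k) (by simpa only [Complex.norm_conj] using hn k),
      ← tsum_mul_left]
    refine tsum_congr fun p => ?_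
    rw [map_mul]
    ring
  have h2 : Summable fun x : O × (Pr × Pr) =>
      a x.2.1 * conj (a x.2.2) * (sx x.1 x.2.1 * conj (sx x.1 x.2.2) * (gw K x.1 : ℝ)) := by
    refine Summable.of_norm_bounded ((summable_gw hK).mul_of_nonneg
      (Corea_prod ha.summable_norm ha.summable_norm (fun _ => norm_nonneg _)
        (fun _ => norm_nonneg _)).summable (fun k => (gw_nonneg K k))
      (fun p => mul_nonneg (norm_nonneg _) (norm_nonneg _))) fun x => ?_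
    rw [norm_mul, norm_mul, Complex.norm_conj, mul_comm (gw K x.1)]
    exact mul_le_mul_of_nonneg_left (Corea_term K _ _ _) (by positivity)
  rw [En, Complex.ofReal_tsum, tsum_congr h1, ← Summable.tsum_comm (f := fun (k : O) (p : Pr × Pr) =>
    a p.1 * conj (a p.2) * (sx k p.1 * conj (sx k p.2) * (gw K k : ℝ))) h2]
  exact tsum_congr fun p => tsum_mul_left

open Classical in
/-- `tsum_Pr_dvd` in both variables (`Function.Injective.tsum_eq` on `Pr × Pr`) -/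
theorem tsum_pair_dvd {d : O} (hd : Prim d) (G : O → O → ℂ) :
    (∑' p : Pr × Pr, if d ∣ (p.1 : O) ∧ d ∣ (p.2 : O) then G p.1 p.2 else 0) =
      ∑' p : Pr × Pr, G (d * p.1) (d * p.2) := by
  have hi : Function.Injective
      fun m : Pr × Pr => ((⟨d, hd⟩ * m.1, ⟨d, hd⟩ * m.2) : Pr × Pr) := fun m m' h =>
    Prod.ext (Subtype.ext (mul_left_cancel₀ hd.ne_zero (congrArg (fun x : Pr × Pr => (x.1 : O)) h)))
      (Subtype.ext (mul_left_cancel₀ hd.ne_zero (congrArg (fun x : Pr × Pr => (x.2 : O)) h)))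
  rw [← hi.tsum_eq
    (f := fun p : Pr × Pr => if d ∣ (p.1 : O) ∧ d ∣ (p.2 : O) then G p.1 p.2 else 0)]
  · exact tsum_congr fun m => if_pos ⟨dvd_mul_right _ _, dvd_mul_right _ _⟩
  · intro n hn
    by_cases h : d ∣ (n.1 : O) ∧ d ∣ (n.2 : O)
    · obtain ⟨m, hm, h1⟩ := hd.exists_mul n.1.2 h.1
      obtain ⟨m', hm', h2⟩ := hd.exists_mul n.2.2 h.2
      exact ⟨(⟨m, hm⟩, ⟨m', hm'⟩), Prod.ext (Subtype.ext h1.symm) (Subtype.ext h2.symm)⟩
    · exact absurd (if_neg h) hn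

theorem Coreb_osq {e f j m : O} (he : Prim e) (hf : Prim f) (h : Osq (e * f * j * m)) :
    Osq (j * m) :=
  Osq.right (a := e * f) (by rwa [← mul_assoc]) (he.mul hf)

theorem Coreb_Tm_le {L : ℝ} (hL : 0 < L) : ∃ B : ℝ, 0 ≤ B ∧ ∀ e h n₁ n₂ : O, h ≠ 0 → Osq n₁ → Osq n₂ →
    ‖Tm L e h n₁ n₂‖ ≤ B := by
  obtain ⟨C, hC, H⟩ := gw_le_rpow (σ := 1 / 2) (by norm_num)
  refine ⟨C / Real.sqrt L, by positivity, fun e h n₁ n₂ hh h₁ h₂ => (norm_Tm_le L e h h₁ h₂).trans ?_⟩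
  have a1 := nm_pos h₁.1.ne_zero
  have a2 := nm_pos h₂.1.ne_zero
  have h3 := H (nm n₁ * nm n₂ / L) h (by positivity) hh
  have h4 : nm h ^ (-(1 / 2) : ℝ) ≤ 1 := Real.rpow_le_one_of_one_le_of_nonpos (one_le_nm hh) (by norm_num)
  rw [← Real.sqrt_eq_rpow, Real.sqrt_div (by positivity), Real.sqrt_mul a1.le] at h3
  rw [div_le_iff₀ (by positivity)]
  refine h3.trans ((mul_le_of_le_one_right (by positivity) h4).trans_eq ?_)
  ring

open Classical in
/-- one term of `Mid` -/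
noncomputable def Coreb_G (K : ℝ) (l : O × O × O) (h n n' : O) : ℂ :=
  if l.1 * l.2.1 * l.2.2 ∣ n ∧ l.1 * l.2.1 * l.2.2 ∣ n' then
    mu l.1 * mu l.2.2 * (K / nm l.1 : ℝ) * Tm (K / nm l.1) l.1 h
      (l.2.2 * dv n (l.1 * l.2.1 * l.2.2)) (l.2.2 * dv n' (l.1 * l.2.1 * l.2.2))
  else 0

theorem Coreb_G_le {K : ℝ} (hK : 0 < K) {l : O × O × O} (he : Prim l.1) (hf : Prim l.2.1) {h : O}
    (hh : h ≠ 0) : ∃ B : ℝ, ∀ n n' : O, Osq n → Osq n' → ‖Coreb_G K l h n n'‖ ≤ B := by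
  have hpos : 0 < K / nm l.1 := div_pos hK (nm_pos he.ne_zero)
  obtain ⟨B, hB, H⟩ := Coreb_Tm_le hpos
  refine ⟨K / nm l.1 * B, fun n n' hn hn' => ?_⟩
  unfold Coreb_G
  split_ifs with hd
  · have h1 : Osq (l.2.2 * dv n (l.1 * l.2.1 * l.2.2)) :=
      Coreb_osq he hf (by rwa [mul_dv hd.1])
    have h2 : Osq (l.2.2 * dv n' (l.1 * l.2.1 * l.2.2)) :=
      Coreb_osq he hf (by rwa [mul_dv hd.2])
    have h3 := H l.1 h _ _ hh h1 h2
    rw [norm_mul, norm_mul, norm_mul, Complex.norm_real, Real.norm_of_nonneg hpos.le]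
    have h4 : ‖mu l.1‖ * ‖mu l.2.2‖ ≤ 1 :=
      mul_le_one₀ (norm_mu_le _) (norm_nonneg _) (norm_mu_le _)
    calc _ ≤ 1 * (K / nm l.1) * B := by gcongr
      _ = _ := by ring
  · rw [norm_zero]
    positivity

theorem Coreb_term {a : O → ℂ} (ha : AdmP a) (hc : OneCls a) {K : ℝ} (hK : 0 < K) {l : O × O × O} {Y : ℝ}
    (hl : l ∈ Lab Y) (h : O) :
    ‖∑' p : Pr × Pr, a p.1 * conj (a p.2) * Coreb_G K l h p.1 p.2‖ ≤ K / (nm l.1 * nm l.2.2) *
        ‖∑' p : Pr × Pr, a (l.1 * l.2.1 * l.2.2 * p.1) * conj (a (l.1 * l.2.1 * l.2.2 * p.2)) *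
          Tm (K / (nm l.1 * nm l.2.2 ^ 2)) (l.1 * l.2.2 ^ 2) h p.1 p.2‖ := by
  classical
  obtain ⟨he, hf, hj, hs⟩ := mem_Lab'.1 hl
  have hd : Prim (l.1 * l.2.1 * l.2.2) := hs.1
  have hoj : Osq l.2.2 := by
    have : Osq (l.1 * l.2.1 * l.2.2) := ⟨hs.1, hs.2.1⟩
    exact this.right (he.mul hf)
  have e1 : (∑' p : Pr × Pr, a p.1 * conj (a p.2) * Coreb_G K l h p.1 p.2) =
      ∑' p : Pr × Pr, (fun n n' => a n * conj (a n') * Coreb_G K l h n n')
        (l.1 * l.2.1 * l.2.2 * p.1) (l.1 * l.2.1 * l.2.2 * p.2) := by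
    rw [← tsum_pair_dvd hd fun n n' => a n * conj (a n') * Coreb_G K l h n n']
    refine tsum_congr fun p => ?_
    split_ifs with hp
    · rfl
    · simp [Coreb_G, hp]
  rw [e1]
  have e2 : (∑' p : Pr × Pr, (fun n n' => a n * conj (a n') * Coreb_G K l h n n')
        (l.1 * l.2.1 * l.2.2 * p.1) (l.1 * l.2.1 * l.2.2 * p.2)) =
      (mu l.1 * mu l.2.2 * (K / nm l.1 : ℝ) * ((‖bet l.1 h l.2.2‖ ^ 2 : ℝ) : ℂ)) *
      ∑' p : Pr × Pr, a (l.1 * l.2.1 * l.2.2 * p.1) * conj (a (l.1 * l.2.1 * l.2.2 * p.2)) *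
          Tm (K / (nm l.1 * nm l.2.2 ^ 2)) (l.1 * l.2.2 ^ 2) h p.1 p.2 := by
    rw [← tsum_mul_left]
    refine tsum_congr fun p => ?_
    by_cases h1 : a (l.1 * l.2.1 * l.2.2 * p.1) = 0
    · simp [h1]
    by_cases h2 : a (l.1 * l.2.1 * l.2.2 * p.2) = 0
    · simp [h2]
    have o1 := Coreb_osq he hf (ha.osq (hd.mul p.1.2) h1)
    have o2 := Coreb_osq he hf (ha.osq (hd.mul p.2.2) h2)
    simp only [Coreb_G, dvd_mul_right, and_self, if_true, dv_mul hd.ne_zero]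
    rw [Tm_mul _ _ _ hj o1 o2 (cls_cancel hd.ne_zero (Pr_prim _).ne_zero (Pr_prim _).ne_zero
      (hc _ _ (hd.mul p.1.2) (hd.mul p.2.2) h1 h2)), div_div]
    ring
  rw [e2, norm_mul]
  refine mul_le_mul_of_nonneg_right ?_ (norm_nonneg _)
  have hpos : 0 < K / nm l.1 := div_pos hK (nm_pos he.ne_zero)
  have hjp : 0 < nm l.2.2 := nm_pos hj.ne_zero
  rw [norm_mul, norm_mul, norm_mul, Complex.norm_real, Complex.norm_real,
    Real.norm_of_nonneg hpos.le, Real.norm_of_nonneg (sq_nonneg _)]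
  have h4 : ‖mu l.1‖ * ‖mu l.2.2‖ ≤ 1 :=
    mul_le_one₀ (norm_mu_le _) (norm_nonneg _) (norm_mu_le _)
  have h5 : ‖bet l.1 h l.2.2‖ ^ 2 ≤ 1 / nm l.2.2 := by
    calc _ ≤ (1 / Real.sqrt (nm l.2.2)) ^ 2 := by
          gcongr
          exact norm_bet_le _ _ hoj
      _ = _ := by rw [div_pow, Real.sq_sqrt hjp.le, one_pow]
  calc _ ≤ 1 * (K / nm l.1) * (1 / nm l.2.2) := by gcongr
    _ = _ := by field_simp

/-- finite sums out (`Summable.tsum_finsetSum`), `tsum_pair_dvd`, `dv_mul`, `Tm_mul`, `norm_bet_le`,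
`norm_mu_le`.  Also returns the summability. -/
theorem tsum_Mid_le {a : O → ℂ} (ha : AdmP a) (hc : OneCls a) {K X T : ℝ} (hK : 0 < K) :
    Summable (fun p : Pr × Pr => a p.1 * conj (a p.2) * Mid K X T p.1 p.2) ∧
    ‖∑' p : Pr × Pr, a p.1 * conj (a p.2) * Mid K X T p.1 p.2‖ ≤
      ∑ l ∈ Lab (X * T), ∑ h ∈ rows (len K X T l), K / (nm l.1 * nm l.2.2) *
        ‖∑' p : Pr × Pr, a (l.1 * l.2.1 * l.2.2 * p.1) * conj (a (l.1 * l.2.1 * l.2.2 * p.2)) *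
          Tm (K / (nm l.1 * nm l.2.2 ^ 2)) (l.1 * l.2.2 ^ 2) h p.1 p.2‖ := by
  have e0 : (fun p : Pr × Pr => a p.1 * conj (a p.2) * Mid K X T p.1 p.2) = fun p : Pr × Pr =>
      ∑ l ∈ Lab (X * T), ∑ h ∈ rows (len K X T l),
        a p.1 * conj (a p.2) * Coreb_G K l h p.1 p.2 := by
    funext p
    simp only [Mid, Coreb_G, Finset.mul_sum]
  have hs : ∀ l ∈ Lab (X * T), ∀ h ∈ rows (len K X T l),
      Summable fun p : Pr × Pr => a p.1 * conj (a p.2) * Coreb_G K l h p.1 p.2 := fun l hl h hh =>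
    ha.summable_pair (Coreb_G_le hK (mem_Lab'.1 hl).1 (mem_Lab'.1 hl).2.1
      (mem_rows.1 hh).1.ne_zero).choose_spec
  have hs' : ∀ l ∈ Lab (X * T), Summable fun p : Pr × Pr =>
      ∑ h ∈ rows (len K X T l), a p.1 * conj (a p.2) * Coreb_G K l h p.1 p.2 := fun l hl =>
    summable_sum fun h hh => hs l hl h hh
  rw [e0]
  refine ⟨summable_sum hs', ?_⟩
  rw [Summable.tsum_finsetSum hs']
  refine (norm_sum_le _ _).trans (Finset.sum_le_sum fun l hl => ?_)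
  rw [Summable.tsum_finsetSum fun h hh => hs l hl h hh]
  exact (norm_sum_le _ _).trans (Finset.sum_le_sum fun h _ => Coreb_term ha hc hK hl h)

/-- `En_eq`, `pair_decomp`, `tsum_Mid_le`; the diagonal gives `K * l2 a`, the rest is a product
(`AdmP.summable_tail`, `Summable.tsum_mul_tsum`) -/
theorem core1 (A : ℕ) (hA : 2 ≤ A) : ∃ C : ℝ, 0 < C ∧ ∀ (a : O → ℂ) (K X T : ℝ), AdmP a → OneCls a →
    0 < K → 0 < X → 1 ≤ T →
    En false a K ≤ w0 * K * l2 a +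
      ∑ l ∈ Lab (X * T), ∑ h ∈ rows (len K X T l), K / (nm l.1 * nm l.2.2) *
        ‖∑' p : Pr × Pr, a (l.1 * l.2.1 * l.2.2 * p.1) * conj (a (l.1 * l.2.1 * l.2.2 * p.2)) *
          Tm (K / (nm l.1 * nm l.2.2 ^ 2)) (l.1 * l.2.2 ^ 2) h p.1 p.2‖ +
      C * tail A a X T := by
  classical
  obtain ⟨C, hC, hP⟩ := pair_decomp A hA
  refine ⟨C, hC, fun a K X T ha hc hK hX hT => ?_⟩
  obtain ⟨hM, hM'⟩ := tsum_Mid_le (X := X) (T := T) ha hc hK
  have hΦ := ha.summable_pair (G := Phi K) fun n n' _ _ => norm_Phi_le hK n n'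
  have ht : ∀ n : Pr, 0 ≤ ‖a n‖ * (nm n / X) ^ A := fun n =>
    mul_nonneg (norm_nonneg _) (pow_nonneg (div_nonneg (nm_nonneg _) hX.le) _)
  have d1 : HasSum (fun p : Pr × Pr => ‖a p.1‖ * ‖a p.2‖ * if (p.1 : O) = p.2 then w0 * K else 0)
      (w0 * K * l2 a) := by
    refine ((Function.Injective.hasSum_iff (g := fun n : Pr => (n, n))
      (fun _ _ h => congrArg Prod.fst h) fun p hp => ?_).1 ?_)
    · rw [if_neg, mul_zero]
      exact fun h => hp ⟨p.1, Prod.ext rfl (Subtype.ext h)⟩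
    · have e : ((fun p : Pr × Pr => ‖a p.1‖ * ‖a p.2‖ * if (p.1 : O) = p.2 then w0 * K else 0) ∘
          fun n : Pr => (n, n)) = fun n : Pr => w0 * K * ‖a n‖ ^ 2 := by
        funext n
        simp only [Function.comp, if_true]
        ring
      rw [e]
      exact ha.summable_sq.hasSum.mul_left (w0 * K)
  have d2 := (Corea_prod (ha.summable_tail A X) (ha.summable_tail A X) ht ht).mul_left
    (C * (T / T ^ A * (1 + X) ^ 3))
  have d3 : ‖∑' p : Pr × Pr, a p.1 * conj (a p.2) * (Phi K p.1 p.2 - Mid K X T p.1 p.2)‖ ≤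
      w0 * K * l2 a + C * tail A a X T := by
    refine (tsum_of_norm_bounded (d1.add d2) fun p => ?_).trans (le_of_eq ?_)
    · refine (Corea_norm_le' ha hc (G := fun n n' => Phi K n n' - Mid K X T n n')
        (fun n n' hn hn' hcl => hP K X T n n' hK hX hT hn hn' hcl) p).trans (le_of_eq ?_)
      ring
    · unfold tail
      ring
  have e : (En false a K : ℂ) = ∑' p : Pr × Pr, a p.1 * conj (a p.2) * Mid K X T p.1 p.2 +
      ∑' p : Pr × Pr, a p.1 * conj (a p.2) * (Phi K p.1 p.2 - Mid K X T p.1 p.2) := by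
    simp only [mul_sub]
    rw [hΦ.tsum_sub hM, En_eq ha hK, add_sub_cancel]
  have h1 : En false a K ≤ ‖(En false a K : ℂ)‖ := by
    rw [Complex.norm_real]
    exact le_abs_self _
  rw [e] at h1
  linarith [norm_add_le (∑' p : Pr × Pr, a p.1 * conj (a p.2) * Mid K X T p.1 p.2)
    (∑' p : Pr × Pr, a p.1 * conj (a p.2) * (Phi K p.1 p.2 - Mid K X T p.1 p.2))]

end Crest.Agent.R27.Z
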