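import Crest.Agent.R27.A.All
import Crest.Agent.R27.Api.SumO
import Crest.Agent.R27.Api.Tau
import Crest.Agent.R17.M1.Main

/-!
Row 27, block MAIN (owner helper11): definitions of Lemma P (port of `R17/P/Defs`).
Labels `l = (e, f, j)`: `g = e f` (`e ∣ g` is the mask divisor), `j` is the Möbius label.
Differences with `R17`: rows are PRIMARY, `IsTw ψ` = unimodular multiplicative class function.
-/

set_option autoImplicit false

namespace Crest.Agent.R27.Z

open scoped ComplexConjugate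
open Crest.Agent.R17 (LN sj sj_false sj_true)
open Crest.Agent.R27.Ab

variable [Bd]

/-- a character of the class group, read on `O` -/
structure IsTw (ψ : O → ℂ) : Prop where
  mul : ∀ {a b : O}, a ≠ 0 → b ≠ 0 → ψ (a * b) = ψ a * ψ b
  ex : ∃ ρ : Cl → ℂ, (∀ x, ‖ρ x‖ = 1) ∧ ∀ n, ψ n = ρ (cls n)

/-- the moment bound for the Möbius sums (output of block M1) -/
def StM : Prop :=
  ∀ a ε : ℝ, 0 < a → 0 < ε → ∃ C : ℝ, ∀ U X : ℝ, 1 ≤ U → 0 < X → X ≤ U →
    ∑ u ∈ ball U, ‖MS (fun n => sx u n) a X 0‖ ^ 2 ≤ C * U ^ ε * U * X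

/-- admissible coefficients: on primary elements they live on squarefree ones, rapid decay -/
structure AdmP (a : O → ℂ) : Prop where
  supp : ∀ n, Prim n → a n ≠ 0 → Squarefree n
  dec : ∀ σ : ℝ, Summable fun n : Pr => ‖a n‖ * nm n ^ σ

/-- the column sum `∑ a(n) χ_n(k)^±` -/
noncomputable def Sp (s : Bool) (a : O → ℂ) (k : O) : ℂ := ∑' n : Pr, a n * sj s (sx k n)

/-- the energy over all rows (including `k = 0`) -/
noncomputable def En (s : Bool) (a : O → ℂ) (K : ℝ) : ℝ := ∑' k : O, gw K k * ‖Sp s a k‖ ^ 2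

/-- primary rows of norm at most `H` -/
noncomputable def rows (H : ℝ) : Finset O := ball H

theorem mem_rows {H : ℝ} {h : O} : h ∈ rows H ↔ Prim h ∧ nm h ≤ H := mem_ball

open Classical in
/-- labels `(e, f, j)`: primary, product squarefree of norm at most `Y` -/
noncomputable def Lab (Y : ℝ) : Finset (O × O × O) :=
  (ball Y ×ˢ ball Y ×ˢ ball Y).filter fun l =>
    Prim l.1 ∧ Prim l.2.1 ∧ Prim l.2.2 ∧ Sq Y (l.1 * l.2.1 * l.2.2)

theorem mem_Lab' {Y : ℝ} {l : O × O × O} :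
    l ∈ Lab Y ↔ Prim l.1 ∧ Prim l.2.1 ∧ Prim l.2.2 ∧ Sq Y (l.1 * l.2.1 * l.2.2) := by
  simp only [Lab, Finset.mem_filter, Finset.mem_product, mem_ball, and_iff_right_iff_imp]
  rintro ⟨h1, h2, h3, h, -, hY⟩
  exact ⟨⟨h1, (nm_le_of_dvd ((dvd_mul_right _ _).mul_right _) h.ne_zero).trans hY⟩,
    ⟨h2, (nm_le_of_dvd ((dvd_mul_left _ _).mul_right _) h.ne_zero).trans hY⟩,
    h3, (nm_le_of_dvd (dvd_mul_left _ _) h.ne_zero).trans hY⟩

theorem mem_Lab {Y : ℝ} {e f j : O} :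
    (e, f, j) ∈ Lab Y ↔ Prim e ∧ Prim f ∧ Prim j ∧ Sq Y (e * f * j) := mem_Lab'

/-- the dual coefficients at the label `l = (e, f, j)` -/
noncomputable def dual (s : Bool) (a ρ : O → ℂ) (z : ℂ) (l : O × O × O) (m : O) : ℂ :=
  a (l.1 * l.2.1 * l.2.2 * m) * ρ m * sj s (gt m * sx (l.1 * l.2.2 ^ 2) m) *
    (nm m : ℂ) ^ (z - 1 / 2)

/-- the child coefficients (after the second Poisson summation) -/
noncomputable def child (b ρ : O → ℂ) (z : ℂ) (l : O × O × O) (m : O) : ℂ :=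
  b (l.1 * l.2.1 * l.2.2 * m) * ρ m * (nm m : ℂ) ^ (z - 1 / 2)

/-- the prefactor `K / (N e N j) · (N e N j² / K)^σ` -/
noncomputable def pre (σ K : ℝ) (l : O × O × O) : ℝ :=
  K / (nm l.1 * nm l.2.2) * (nm l.1 * nm l.2.2 ^ 2 / K) ^ σ

/-- the dual length `T · N e (X / N g)² / K`, `g = e f` -/
noncomputable def len (K X T : ℝ) (l : O × O × O) : ℝ := T * X ^ 2 / (K * nm l.1 * nm l.2.1 ^ 2)

/-- the diagonal -/
noncomputable def l2 (a : O → ℂ) : ℝ := ∑' n : Pr, ‖a n‖ ^ 2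

/-- the (negligible) tail; use `T = Z^ε`, `A` large, `X` the length of `a` -/
noncomputable def tail (A : ℕ) (a : O → ℂ) (X T : ℝ) : ℝ :=
  T / T ^ A * (1 + X) ^ 3 * (∑' n : Pr, ‖a n‖ * (nm n / X) ^ A) ^ 2

/-! ### internal definitions -/

/-- primary squarefree -/
def Osq (n : O) : Prop := Prim n ∧ Squarefree n

/-- the coefficients live on one class -/
def OneCls (a : O → ℂ) : Prop := ∀ n n', Prim n → Prim n' → a n ≠ 0 → a n' ≠ 0 → cls n = cls n'

/-- one column of the dual term -/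
noncomputable def bet (e h n : O) : ℂ :=
  gt n * sx e n * conj (sx h n) / (Real.sqrt (nm n) : ℂ)

/-- the dual term (for columns in the same class) -/
noncomputable def Tm (L : ℝ) (e h n₁ n₂ : O) : ℂ :=
  bet e h n₁ * conj (bet e h n₂) * (gw (nm n₁ * nm n₂ / L) h : ℝ)

/-- the row sum of a pair of columns -/
noncomputable def Phi (K : ℝ) (n n' : O) : ℂ := ∑' k : O, sx k n * conj (sx k n') * (gw K k : ℝ)

open Classical in
/-- exact quotient -/
noncomputable def dv (n d : O) : O := if h : d ∣ n then h.choose else 0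

theorem mul_dv {n d : O} (h : d ∣ n) : d * dv n d = n := by
  rw [dv, dif_pos h]
  exact h.choose_spec.symm

theorem dv_mul {d : O} (hd : d ≠ 0) (m : O) : dv (d * m) d = m :=
  mul_left_cancel₀ hd (mul_dv (dvd_mul_right d m))

open Classical in
/-- the main part of `Phi` -/
noncomputable def Mid (K X T : ℝ) (n n' : O) : ℂ :=
  ∑ l ∈ Lab (X * T), ∑ h ∈ rows (len K X T l),
    if l.1 * l.2.1 * l.2.2 ∣ n ∧ l.1 * l.2.1 * l.2.2 ∣ n' then
      mu l.1 * mu l.2.2 * (K / nm l.1 : ℝ) * Tm (K / nm l.1) l.1 h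
        (l.2.2 * dv n (l.1 * l.2.1 * l.2.2)) (l.2.2 * dv n' (l.1 * l.2.1 * l.2.2))
    else 0

/-- twisted Dirichlet polynomial -/
noncomputable def Gs (F ρ : O → ℂ) (z : ℂ) : ℂ := ∑' m : Pr, F m * ρ m * (nm m : ℂ) ^ z

end Crest.Agent.R27.Z
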