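import Crest.Agent.R27.Z.Defs
import Crest.Agent.R27.Api.Pois

/-!
Row 27, block MAIN: elementary facts on admissible coefficients (port of `R17/P/Glue`).
-/

set_option autoImplicit false

namespace Crest.Agent.R27.Z

open scoped ComplexConjugate
open Crest.Agent.R17 (LN sj sj_false sj_true norm_sj sj_mul)
open Crest.Agent.R27.Ab

variable [Bd]

theorem IsTw.norm_eq {ψ : O → ℂ} (h : IsTw ψ) (n : O) : ‖ψ n‖ = 1 := by
  obtain ⟨ρ, h1, h2⟩ := h.ex
  rw [h2, h1]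

theorem IsTw.norm_le {ψ : O → ℂ} (h : IsTw ψ) (n : O) : ‖ψ n‖ ≤ 1 := (h.norm_eq n).le

theorem IsTw.mul' {ψ φ : O → ℂ} (h : IsTw ψ) (h' : IsTw φ) : IsTw fun n => ψ n * φ n := by
  obtain ⟨ρ, h1, h2⟩ := h.ex
  obtain ⟨ρ', h1', h2'⟩ := h'.ex
  refine ⟨fun ha hb => ?_, fun x => ρ x * ρ' x, fun x => ?_, fun n => ?_⟩
  · rw [h.mul ha hb, h'.mul ha hb]
    ring
  · rw [norm_mul, h1, h1', one_mul]
  · rw [h2, h2']

theorem IsTw.conj {ψ : O → ℂ} (h : IsTw ψ) : IsTw fun n => conj (ψ n) := by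
  obtain ⟨ρ, h1, h2⟩ := h.ex
  refine ⟨fun ha hb => ?_, fun x => (starRingEnd ℂ) (ρ x), fun x => ?_, fun n => ?_⟩
  · rw [h.mul ha hb, map_mul]
  · rw [Complex.norm_conj, h1]
  · rw [h2]

theorem isTw_one : IsTw fun _ => 1 := ⟨fun _ _ => (one_mul _).symm, fun _ => 1, fun _ => norm_one, fun _ => rfl⟩

theorem isTw_hs_left (y : Cl) : IsTw fun n => hs (cls n) y :=
  ⟨fun ha hb => by rw [cls_mul ha hb, hs_mul_left], fun x => hs x y, fun _ => norm_hs _ _, fun _ => rfl⟩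

theorem isTw_hs_right (x : Cl) : IsTw fun n => hs x (cls n) :=
  ⟨fun ha hb => by rw [cls_mul ha hb, hs_mul_right], fun y => hs x y, fun _ => norm_hs _ _, fun _ => rfl⟩

theorem IsTw.mul_eps {ψ : O → ℂ} (h : IsTw ψ) (b : O) : IsTw fun n => ψ n * eps b n :=
  h.mul' ⟨fun ha hb => eps_mul_right _ ha hb, fun y => hs (cls b) y ^ 3, fun _ => by simp, fun _ => rfl⟩

theorem IsTw.map_one {ψ : O → ℂ} (h : IsTw ψ) : ψ 1 = 1 := by
  have h1 := h.mul (a := 1) (b := 1) one_ne_zero one_ne_zero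
  rw [mul_one] at h1
  exact (mul_eq_left₀ (norm_ne_zero_iff.1 (by rw [h.norm_eq]; exact one_ne_zero))).1 h1.symm

theorem IsTw.map_pow {ψ : O → ℂ} (h : IsTw ψ) {a : O} (ha : a ≠ 0) (k : ℕ) : ψ (a ^ k) = ψ a ^ k := by
  induction k with
  | zero => rw [pow_zero, pow_zero, h.map_one]
  | succ k ih => rw [pow_succ, h.mul (pow_ne_zero k ha) ha, ih, pow_succ]

theorem Osq.left {a b : O} (h : Osq (a * b)) (ha : Prim a) : Osq a :=
  ⟨ha, h.2.squarefree_of_dvd (dvd_mul_right a b)⟩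

theorem Osq.right {a b : O} (h : Osq (a * b)) (ha : Prim a) : Osq b :=
  ⟨ha.of_mul h.1, h.2.squarefree_of_dvd (dvd_mul_left b a)⟩

theorem Osq.coprime {a b : O} (h : Osq (a * b)) : IsCoprime a b :=
  (squarefree_mul_iff.1 h.2).1.isCoprime

theorem Osq.norm_gt {m : O} (h : Osq m) : ‖gt m‖ = 1 := Ab.norm_gt h.2

theorem gt_one : gt 1 = 1 := by
  simp [Ab.gt, gs_unit 1 (1 : O) isUnit_one]

theorem Osq.gt_mul {d m : O} (h : Osq (d * m)) (hd : Prim d) :
    gt (d * m) = gt d * hs (cls m) (cls d) * gt m * sx (d ^ 2) m := by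
  rw [Ab.gt_mul hd.ne_zero (h.right hd).1.ne_zero h.coprime, sx_pow_left d m two_ne_zero]
  ring

theorem AdmP.osq {a : O → ℂ} (ha : AdmP a) {n : O} (hn : Prim n) (h : a n ≠ 0) : Osq n :=
  ⟨hn, ha.supp n hn h⟩

theorem AdmP.summable_norm {a : O → ℂ} (ha : AdmP a) : Summable fun n : Pr => ‖a n‖ := by
  simpa using ha.dec 0

theorem AdmP.summable_sq {a : O → ℂ} (ha : AdmP a) : Summable fun n : Pr => ‖a n‖ ^ 2 := by
  have h := ha.summable_norm
  refine Summable.of_nonneg_of_le (fun n => by positivity) (fun n => ?_)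
    (h.mul_left (∑' n : Pr, ‖a n‖))
  rw [sq]
  exact mul_le_mul_of_nonneg_right (h.le_tsum n fun _ _ => norm_nonneg _) (norm_nonneg _)

theorem AdmP.summable_tail {a : O → ℂ} (ha : AdmP a) (A : ℕ) (X : ℝ) :
    Summable fun n : Pr => ‖a n‖ * (nm n / X) ^ A := by
  refine ((ha.dec A).mul_right (X ^ A)⁻¹).congr fun n => ?_
  rw [Real.rpow_natCast, div_pow]
  ring

/-- domination (only odd squarefree primary `n` matter for `b`) -/
theorem AdmP.of_le {a b : O → ℂ} (ha : AdmP a) {M θ : ℝ}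
    (h : ∀ n, Prim n → ‖b n‖ ≤ M * nm n ^ θ * ‖a n‖) : AdmP b := by
  refine ⟨fun n hn hb => ha.supp n hn fun h0 => hb ?_, fun σ => ?_⟩
  · have := h n hn
    rw [h0, norm_zero, mul_zero] at this
    exact norm_le_zero_iff.1 this
  · refine Summable.of_nonneg_of_le
      (fun n => mul_nonneg (norm_nonneg _) (Real.rpow_nonneg (nm_nonneg _) _)) (fun n => ?_)
      ((ha.dec (θ + σ)).mul_left M)
    rw [Real.rpow_add (nm_pos (Pr_prim n).ne_zero)]
    calc ‖b n‖ * nm n ^ σ ≤ M * nm n ^ θ * ‖a n‖ * nm n ^ σ :=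
          mul_le_mul_of_nonneg_right (h n (Pr_prim n)) (Real.rpow_nonneg (nm_nonneg _) _)
      _ = _ := by ring

theorem AdmP.comp_mul {a : O → ℂ} (ha : AdmP a) {d : O} (hd : Prim d) :
    AdmP fun m => a (d * m) := by
  refine ⟨fun n hn h => ?_, fun σ => ?_⟩
  · exact ((ha.osq (hd.mul hn) h).right hd).2
  · have hinj : Function.Injective fun m : Pr => (⟨d, hd⟩ * m : Pr) := fun m m' h =>
      Subtype.ext (mul_left_cancel₀ hd.ne_zero (congrArg Subtype.val h))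
    refine (((ha.dec σ).comp_injective hinj).mul_right (nm d ^ σ)⁻¹).congr fun m => ?_
    have h0 : nm d ^ σ ≠ 0 := (Real.rpow_pos_of_pos (nm_pos hd.ne_zero) σ).ne'
    show ‖a (d * m)‖ * nm (d * m) ^ σ * (nm d ^ σ)⁻¹ = _
    rw [nm_mul, Real.mul_rpow (nm_nonneg _) (nm_nonneg _)]
    field_simp

theorem AdmP.add {a b : O → ℂ} (ha : AdmP a) (hb : AdmP b) : AdmP fun n => a n + b n := by
  refine ⟨fun n hn h => ?_, fun σ => ?_⟩
  · by_cases h0 : a n = 0
    · exact hb.supp n hn fun h1 => h (by rw [h0, h1, add_zero])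
    · exact ha.supp n hn h0
  · refine Summable.of_nonneg_of_le
      (fun n => mul_nonneg (norm_nonneg _) (Real.rpow_nonneg (nm_nonneg _) _)) (fun n => ?_)
      ((ha.dec σ).add (hb.dec σ))
    rw [← add_mul]
    exact mul_le_mul_of_nonneg_right (norm_add_le _ _) (Real.rpow_nonneg (nm_nonneg _) _)

theorem AdmP.sum {ι : Type} (s : Finset ι) {a : ι → O → ℂ} (ha : ∀ i ∈ s, AdmP (a i)) :
    AdmP fun n => ∑ i ∈ s, a i n := by
  classical
  induction s using Finset.induction_on with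
  | empty => exact ⟨fun n _ h => absurd (Finset.sum_empty) h, fun σ => by simp⟩
  | insert i s hi ih =>
    simp only [Finset.sum_insert hi]
    exact (ha i (Finset.mem_insert_self i s)).add
      (ih fun j hj => ha j (Finset.mem_insert_of_mem hj))

theorem AdmP.child {b ρ : O → ℂ} (hb : AdmP b) (hρ : ∀ m, ‖ρ m‖ ≤ 1) (z : ℂ) {e f j : O}
    (he : Prim e) (hf : Prim f) (hj : Prim j) : AdmP (child b ρ z (e, f, j)) := by
  refine (hb.comp_mul ((he.mul hf).mul hj)).of_le (M := 1) (θ := (z - 1 / 2).re) fun n hn => ?_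
  have h0 := nm_pos hn.ne_zero
  rw [Z.child, norm_mul, norm_mul, Complex.norm_cpow_eq_rpow_re_of_pos h0]
  have h1 := hρ n
  have h2 : 0 ≤ nm n ^ (z - 1 / 2).re := Real.rpow_nonneg h0.le _
  have h3 := norm_nonneg (b (e * f * j * n))
  calc ‖b (e * f * j * n)‖ * ‖ρ n‖ * nm n ^ (z - 1 / 2).re
      ≤ ‖b (e * f * j * n)‖ * 1 * nm n ^ (z - 1 / 2).re := by gcongr
    _ = _ := by ring

/-- Gauss-weighted coefficients -/
theorem AdmP.norm_gauss_le {b : O → ℂ} (hb : AdmP b) (v : O) {m : O} (hm : Prim m) :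
    ‖b m * gt m * sx v m‖ ≤ ‖b m‖ := by
  by_cases h : b m = 0
  · simp [h]
  rw [norm_mul, norm_mul, (hb.osq hm h).norm_gt, mul_one]
  exact mul_le_of_le_one_right (norm_nonneg _) (norm_sx_le v m)

theorem AdmP.gauss {b : O → ℂ} (hb : AdmP b) (v : O) : AdmP fun m => b m * gt m * sx v m := by
  refine hb.of_le (M := 1) (θ := 0) fun n hn => ?_
  simpa using hb.norm_gauss_le v hn

/-- log-normal coefficients (`sum_LN_O` with `θ := θ + σ`) -/
theorem admP_LN {c : O → ℂ} {M θ a Y : ℝ} (ha : 0 < a) (hY : 0 < Y) (t : ℝ)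
    (hs : ∀ n, Prim n → c n ≠ 0 → Squarefree n)
    (hc : ∀ n, Prim n → ‖c n‖ ≤ M * nm n ^ θ) : AdmP fun n => c n * LN a Y t (nm n) := by
  refine ⟨fun n hn h => hs n hn (left_ne_zero_of_mul h), fun σ => ?_⟩
  have hM : 0 ≤ M := by
    have h1 := hc 1 prim_one
    rw [nm_one, Real.one_rpow, mul_one] at h1
    exact (norm_nonneg _).trans h1
  obtain ⟨C, -, H⟩ := sum_LN_O ha (θ + σ)
  have key := (H (ι := Pr) (fun n => (n : O)) (fun n => c n * ((nm n ^ σ : ℝ) : ℂ)) M Y t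
    Subtype.val_injective (fun n h => absurd n.2 h) (fun n hn => by
      have hp := nm_pos hn.ne_zero
      rw [norm_mul, Complex.norm_real, Real.norm_of_nonneg (by positivity), Real.rpow_add hp,
        ← mul_assoc]
      exact mul_le_mul_of_nonneg_right (hc n (Pr_prim n)) (by positivity)) hM hY).1
  refine key.congr fun n => ?_
  have hp := nm_nonneg (n : O)
  rw [norm_mul, norm_mul, norm_mul, Complex.norm_real, Real.norm_of_nonneg (by positivity)]
  ring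

theorem l2_mono {a b : O → ℂ} (ha : AdmP a) (h : ∀ n, Prim n → ‖b n‖ ≤ ‖a n‖) : l2 b ≤ l2 a := by
  have h1 : ∀ n : Pr, ‖b n‖ ^ 2 ≤ ‖a n‖ ^ 2 := fun n =>
    pow_le_pow_left₀ (norm_nonneg _) (h n (Pr_prim n)) 2
  exact (ha.summable_sq.of_nonneg_of_le (fun n => by positivity) h1).tsum_le_tsum h1
    ha.summable_sq

theorem tail_mono {a b : O → ℂ} (ha : AdmP a) (h : ∀ n, Prim n → ‖b n‖ ≤ ‖a n‖) (A : ℕ) {X T : ℝ}
    (hX : 0 < X) (hT : 0 ≤ T) : tail A b X T ≤ tail A a X T := by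
  have h0 : ∀ n : Pr, 0 ≤ ‖b n‖ * (nm n / X) ^ A := fun n => by
    have := nm_nonneg (n : O)
    positivity
  have h1 : ∀ n : Pr, ‖b n‖ * (nm n / X) ^ A ≤ ‖a n‖ * (nm n / X) ^ A := fun n => by
    have := nm_nonneg (n : O)
    exact mul_le_mul_of_nonneg_right (h n (Pr_prim n)) (by positivity)
  have h2 := ((ha.summable_tail A X).of_nonneg_of_le h0 h1).tsum_le_tsum h1 (ha.summable_tail A X)
  unfold tail
  exact mul_le_mul_of_nonneg_left (pow_le_pow_left₀ (tsum_nonneg h0) h2 2) (by positivity)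

theorem Glueb_norm_le (a : O → ℂ) (s : Bool) (k n : O) : ‖a n * sj s (sx k n)‖ ≤ ‖a n‖ := by
  rw [norm_mul, norm_sj]
  exact mul_le_of_le_one_right (norm_nonneg _) (norm_sx_le _ _)

theorem AdmP.summable {a : O → ℂ} (ha : AdmP a) (s : Bool) (k : O) :
    Summable fun n : Pr => a n * sj s (sx k n) := by
  exact ha.summable_norm.of_norm_bounded fun n => Glueb_norm_le a s k n

theorem AdmP.norm_Sp_le {a : O → ℂ} (ha : AdmP a) (s : Bool) (k : O) :
    ‖Sp s a k‖ ≤ ∑' n : Pr, ‖a n‖ := by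
  exact tsum_of_norm_bounded ha.summable_norm.hasSum fun n => Glueb_norm_le a s k n

theorem AdmP.summable_En {a : O → ℂ} (ha : AdmP a) (s : Bool) {K : ℝ} (hK : 0 < K) :
    Summable fun k : O => gw K k * ‖Sp s a k‖ ^ 2 := by
  refine ((summable_gw hK).mul_right ((∑' n : Pr, ‖a n‖) ^ 2)).of_nonneg_of_le
    (fun k => mul_nonneg (gw_nonneg K k) (by positivity)) fun k => ?_
  exact mul_le_mul_of_nonneg_left (pow_le_pow_left₀ (norm_nonneg _) (ha.norm_Sp_le s k) 2)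
    (gw_nonneg K k)

/-- sharp cut-off by the weight (`le_gw`) -/
theorem AdmP.sum_le_En {a : O → ℂ} (ha : AdmP a) (s : Bool) {K : ℝ} (hK : 0 < K) (B : Finset O)
    (hB : ∀ k ∈ B, Prim k ∧ nm k ≤ K) : ∑ k ∈ B, ‖Sp s a k‖ ^ 2 ≤ cE * En s a K := by
  have h1 : ∑ k ∈ B, gw K k * ‖Sp s a k‖ ^ 2 ≤ En s a K :=
    (ha.summable_En s hK).sum_le_tsum B fun k _ => mul_nonneg (gw_nonneg K k) (by positivity)
  refine le_trans ?_ (mul_le_mul_of_nonneg_left h1 cE_pos.le)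
  rw [Finset.mul_sum]
  refine Finset.sum_le_sum fun k hk => ?_
  rw [← mul_assoc]
  exact le_mul_of_one_le_left (by positivity) (le_gw hK (hB k hk).1 (hB k hk).2)

theorem conj_Sp (s : Bool) (a : O → ℂ) (k : O) :
    conj (Sp s a k) = Sp (!s) (fun n => conj (a n)) k := by
  unfold Sp
  rw [Complex.conj_tsum]
  refine tsum_congr fun n => ?_
  cases s <;> simp

/-- the output of the first step is an input of the second one -/
theorem dual_false (a ρ : O → ℂ) (z : ℂ) (l : O × O × O) :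
    dual false a ρ z l = fun m => child a ρ z l m * gt m * sx (l.1 * l.2.2 ^ 2) m := by
  funext m
  simp only [dual, child, sj_false]
  ring

/-- sums over labels (`summable_nm_rpow`, `Finset.sum_product`) -/
theorem sum_Lab_le {s : ℝ} (hs : 1 < s) : ∃ C : ℝ, 0 < C ∧ ∀ S : Finset (O × O × O),
    (∀ l ∈ S, Prim l.1 ∧ Prim l.2.1 ∧ Prim l.2.2) → ∑ l ∈ S, nm l.1 ^ (-s) * nm l.2.1 ^ (-s) * nm l.2.2 ^ (-s) ≤ C := by
  classical
  have h0 : ∀ n : O, 0 ≤ nm n ^ (-s) := fun n => Real.rpow_nonneg (nm_nonneg n) _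
  have hS := summable_nm_rpow hs
  set D : ℝ := ∑' n : Pr, nm n ^ (-s) with hD
  have hD0 : 0 ≤ D := tsum_nonneg fun n => h0 n
  have hA : ∀ A : Finset O, (∀ n ∈ A, Prim n) → ∑ n ∈ A, nm n ^ (-s) ≤ D := fun A hA =>
    sum_le_tsum_Pr (f := fun n => nm n ^ (-s)) hS (fun n _ => h0 n) hA
  refine ⟨D * (D * D) + 1, by positivity, fun S hS' => ?_⟩
  have hsub : S ⊆ S.image (·.1) ×ˢ S.image (·.2.1) ×ˢ S.image (·.2.2) := fun l hl => by
    simp only [Finset.mem_product]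
    exact ⟨Finset.mem_image_of_mem _ hl, Finset.mem_image_of_mem _ hl,
      Finset.mem_image_of_mem _ hl⟩
  refine (Finset.sum_le_sum_of_subset_of_nonneg hsub fun l _ _ =>
    mul_nonneg (mul_nonneg (h0 _) (h0 _)) (h0 _)).trans ?_
  have e : ∀ A B C : Finset O,
      ∑ l ∈ A ×ˢ B ×ˢ C, nm l.1 ^ (-s) * nm l.2.1 ^ (-s) * nm l.2.2 ^ (-s) =
      (∑ n ∈ A, nm n ^ (-s)) * ((∑ n ∈ B, nm n ^ (-s)) * ∑ n ∈ C, nm n ^ (-s)) := by
    intro A B C
    rw [Finset.sum_mul_sum B C, ← Finset.sum_product', Finset.sum_mul_sum, ← Finset.sum_product']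
    exact Finset.sum_congr rfl fun l _ => mul_assoc _ _ _
  rw [e]
  refine le_trans ?_ (le_add_of_nonneg_right zero_le_one)
  have hA0 : ∀ A : Finset O, 0 ≤ ∑ n ∈ A, nm n ^ (-s) := fun A => Finset.sum_nonneg fun n _ => h0 n
  refine mul_le_mul (hA _ ?_) (mul_le_mul (hA _ ?_) (hA _ ?_) (hA0 _) hD0) (mul_nonneg (hA0 _) (hA0 _)) hD0
  all_goals
    intro n hn
    obtain ⟨l, hl, rfl⟩ := Finset.mem_image.1 hn
  exacts [(hS' l hl).1, (hS' l hl).2.1, (hS' l hl).2.2]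

theorem pre_nonneg (σ : ℝ) {K : ℝ} (hK : 0 < K) (l : O × O × O) : 0 ≤ pre σ K l := by
  have := nm_nonneg l.1
  have := nm_nonneg l.2.2
  unfold pre
  positivity

end Crest.Agent.R27.Z
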