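import Crest.Agent.R27.Z.Glue

/-!
Row 27, block MAIN (port of `R17/P`): separation of the two columns (Mellin transform of the weight).
-/

set_option autoImplicit false

namespace Crest.Agent.R27.Z

open scoped ComplexConjugate
open Crest.Agent.R17 (LN sj sj_false sj_true norm_sj sj_mul Adm DD VI VInt norm_VI_le integrable_exp_neg_abs Sepa_cpow)
open Crest.Agent.R27.Ab

variable [Bd]

open MeasureTheory Complex

/-- `continuous_tsum` (or `Adm.continuous_DD`) -/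
theorem AdmP.cont_Gs {F ρ : O → ℂ} (hF : AdmP F) (hρ : ∀ m, ‖ρ m‖ ≤ 1) (σ : ℝ) :
    Continuous (fun τ : ℝ => Gs F ρ (σ + τ * I)) ∧
      ∀ τ : ℝ, ‖Gs F ρ (σ + τ * I)‖ ≤ ∑' m : Pr, ‖F m‖ * nm m ^ σ := by
  have hb : ∀ (m : Pr) (τ : ℝ),
      ‖F m * ρ m * (nm m : ℂ) ^ ((σ : ℂ) + τ * I)‖ ≤ ‖F m‖ * nm m ^ σ := fun m τ => by
    have hm : 0 < nm (m : O) := nm_pos (Prim.ne_zero m.2)
    rw [norm_mul, norm_mul, Complex.norm_cpow_eq_rpow_re_of_pos hm]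
    have h1 : ((σ : ℂ) + τ * I).re = σ := by simp
    rw [h1]
    have h2 : ‖F m‖ * ‖ρ m‖ ≤ ‖F m‖ := mul_le_of_le_one_right (norm_nonneg _) (hρ m)
    exact mul_le_mul_of_nonneg_right h2 (Real.rpow_nonneg hm.le _)
  refine ⟨?_, fun τ => ?_⟩
  · refine continuous_tsum (fun m => ?_) (hF.dec σ) hb
    have hm : (nm (m : O) : ℂ) ≠ 0 := Complex.ofReal_ne_zero.2 (nm_pos (Prim.ne_zero m.2)).ne'
    exact continuous_const.mul (Continuous.const_cpow (by fun_prop) (Or.inl hm))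
  · exact tsum_of_norm_bounded (hF.dec σ).hasSum fun m => hb m τ

theorem AdmP.integrable_Gs {F ρ : O → ℂ} (hF : AdmP F) (hρ : ∀ m, ‖ρ m‖ ≤ 1) (σ : ℝ) :
    Integrable fun τ : ℝ => Real.exp (-|τ|) * ‖Gs F ρ (σ + τ * I)‖ ^ 2 := by
  obtain ⟨hc, hb⟩ := hF.cont_Gs hρ σ
  have h1 : Integrable fun τ : ℝ => Real.exp (-|τ|) := by
    simpa using integrable_exp_neg_abs one_pos
  refine h1.mul_bdd (c := (∑' m : Pr, ‖F m‖ * nm m ^ σ) ^ 2)
    (hc.norm.pow 2).aestronglyMeasurable (Filter.Eventually.of_forall fun τ => ?_)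
  rw [norm_pow, norm_norm]
  exact pow_le_pow_left₀ (norm_nonneg _) (hb τ) 2

theorem Sepa_pos (m : Pr) : 0 < nm (m : O) := nm_pos (Pr_prim m).ne_zero

theorem Sepa_summable {F ρ : O → ℂ} (hF : AdmP F) (hρ : ∀ m, ‖ρ m‖ ≤ 1) (z : ℂ) :
    Summable fun m : Pr => ‖F m * ρ m * (nm m : ℂ) ^ z‖ := by
  refine Summable.of_nonneg_of_le (fun _ => norm_nonneg _) (fun m => ?_) (hF.dec z.re)
  rw [norm_mul, norm_mul, norm_cpow_eq_rpow_re_of_pos (Sepa_pos m)]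
  exact mul_le_mul_of_nonneg_right (mul_le_of_le_one_right (norm_nonneg _) (hρ m))
    (Real.rpow_nonneg (Sepa_pos m).le _)

theorem Sepa_DD {F ψ φ : O → ℂ} (hF : AdmP F) (hψ : ∀ m, ‖ψ m‖ ≤ 1) (hφ : ∀ m, ‖φ m‖ ≤ 1) {κ : ℝ}
    (hκ : 0 < κ) (z : ℂ) :
    DD (fun p : Pr × Pr => F p.1 * ψ p.1 * conj (F p.2 * φ p.2))
        (fun p => κ / (nm (p.1 : O) * nm (p.2 : O))) z =
      (κ : ℂ) ^ (-z) * (Gs F ψ z * conj (Gs F φ (conj z))) := by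
  have h2 : Summable fun m : Pr => ‖conj (F m * φ m * (nm m : ℂ) ^ (conj z))‖ := by
    simpa only [norm_conj] using Sepa_summable hF hφ (conj z)
  rw [Gs, Gs, conj_tsum, tsum_mul_tsum_of_summable_norm (Sepa_summable hF hψ z) h2, ← tsum_mul_left, DD]
  refine tsum_congr fun p => ?_
  have h1 := Sepa_pos p.1
  have h2 := Sepa_pos p.2
  have e : ((κ / (nm (p.1 : O) * nm (p.2 : O)) : ℝ) : ℂ) ^ (-z) =
      (κ : ℂ) ^ (-z) * ((nm (p.1 : O) : ℂ) ^ z * conj ((nm (p.2 : O) : ℂ) ^ (conj z))) := by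
    rw [Sepa_cpow (by positivity), Sepa_cpow hκ, Sepa_cpow h1, Sepa_cpow h2, ← exp_conj, map_mul,
      conj_conj, conj_ofReal, Real.log_div hκ.ne' (by positivity), Real.log_mul h1.ne' h2.ne',
      ← Complex.exp_add, ← Complex.exp_add]
    congr 1
    push_cast
    ring
  rw [e]
  simp only [map_mul]
  ring

theorem Sepa_adm {F ψ φ : O → ℂ} (hF : AdmP F) (hψ : ∀ m, ‖ψ m‖ ≤ 1) (hφ : ∀ m, ‖φ m‖ ≤ 1) {κ : ℝ}
    (hκ : 0 < κ) (σ : ℝ) :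
    Adm (fun p : Pr × Pr => F p.1 * ψ p.1 * conj (F p.2 * φ p.2))
      (fun p => κ / (nm (p.1 : O) * nm (p.2 : O))) σ := by
  refine ⟨fun p _ => div_pos hκ (mul_pos (Sepa_pos _) (Sepa_pos _)), ?_⟩
  have h0 : ∀ m : Pr, 0 ≤ ‖F m‖ * nm m ^ σ := fun m =>
    mul_nonneg (norm_nonneg _) (Real.rpow_nonneg (nm_nonneg _) _)
  refine Summable.of_nonneg_of_le (fun p => mul_nonneg (norm_nonneg _)
    (Real.rpow_nonneg (div_pos hκ (mul_pos (Sepa_pos _) (Sepa_pos _))).le _)) (fun p => ?_)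
    (((hF.dec σ).mul_of_nonneg (hF.dec σ) h0 h0).mul_left (κ ^ (-σ)))
  have h1 := Sepa_pos p.1
  have h2 := Sepa_pos p.2
  have e : (κ / (nm (p.1 : O) * nm (p.2 : O))) ^ (-σ) =
      κ ^ (-σ) * (nm (p.1 : O) ^ σ * nm (p.2 : O) ^ σ) := by
    rw [Real.div_rpow hκ.le (by positivity), Real.rpow_neg (by positivity : 0 ≤ nm (p.1 : O) * _),
      Real.mul_rpow h1.le h2.le, div_inv_eq_mul]
  have e2 : ‖F p.1 * ψ p.1 * conj (F p.2 * φ p.2)‖ ≤ ‖F p.1‖ * ‖F p.2‖ := by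
    rw [norm_mul, norm_conj, norm_mul, norm_mul]
    exact mul_le_mul (mul_le_of_le_one_right (norm_nonneg _) (hψ _))
      (mul_le_of_le_one_right (norm_nonneg _) (hφ _)) (by positivity) (norm_nonneg _)
  rw [e]
  calc _ ≤ ‖F p.1‖ * ‖F p.2‖ * (κ ^ (-σ) * (nm (p.1 : O) ^ σ * nm (p.2 : O) ^ σ)) :=
        mul_le_mul_of_nonneg_right e2 (by positivity)
    _ = _ := by ring

/-- `gw (N₁ N₂ / L) h = W (κ / (N₁ N₂))`, `κ = L N h ≥ L`; the Mellin representation of `W`, `Adm.VI_mul_DD` -/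
theorem sep_one {σ : ℝ} (hσ : 0 < σ) : ∃ C : ℝ, 0 < C ∧ ∀ (F ψ : O → ℂ) (L : ℝ) (h : O), AdmP F →
    (∀ m, ‖ψ m‖ ≤ 1) → 0 < L → Prim h →
    ‖∑' p : Pr × Pr, F p.1 * ψ p.1 * conj (F p.2 * ψ p.2) * (gw (nm p.1 * nm p.2 / L) h : ℝ)‖ ≤
      C * L ^ (-σ) * ∫ τ : ℝ, Real.exp (-|τ|) * ‖Gs F ψ (σ + τ * I)‖ ^ 2 := by
  obtain ⟨C₀, w, hw, hw1, hw2⟩ := isW.mel σ hσ
  have hC₀ : 0 ≤ C₀ := nonneg_of_mul_nonneg_left ((norm_nonneg _).trans (hw1 0)) (Real.exp_pos _)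
  have hπ := Real.pi_pos
  refine ⟨2 * C₀ + 1, by positivity, fun F ψ L h hF hψ hL hh => ?_⟩
  have hh1 := one_le_nm hh.ne_zero
  obtain ⟨κ, hκ⟩ : ∃ κ, κ = nm h * L := ⟨_, rfl⟩
  have hLκ : L ≤ κ := hκ ▸ le_mul_of_one_le_left hL.le hh1
  have hκ0 : 0 < κ := hL.trans_le hLκ
  have hA := Sepa_adm hF hψ hψ hκ0 σ
  have i0 : Integrable fun τ : ℝ => Real.exp (-|τ|) := by
    simpa using integrable_exp_neg_abs one_pos
  have hK : VInt σ fun s => ((2 * Real.pi : ℝ) : ℂ) * w s.im := by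
    have : Integrable w := (i0.const_mul C₀).mono' hw.aestronglyMeasurable (Filter.Eventually.of_forall hw1)
    simpa [VInt] using this.const_mul ((2 * Real.pi : ℝ) : ℂ)
  have h1 := (hA.VI_mul_DD hK).2.tsum_eq
  have h2 : (fun p : Pr × Pr => F p.1 * ψ p.1 * conj (F p.2 * ψ p.2) *
      ((gw (nm p.1 * nm p.2 / L) h : ℝ) : ℂ)) = fun p : Pr × Pr => F p.1 * ψ p.1 * conj (F p.2 * ψ p.2) *
        VI σ fun s => ((2 * Real.pi : ℝ) : ℂ) * w s.im *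
          ((κ / (nm (p.1 : O) * nm (p.2 : O)) : ℝ) : ℂ) ^ (-s) := by
    funext p
    have a1 := Sepa_pos p.1
    have a2 := Sepa_pos p.2
    have e : nm h / (nm (p.1 : O) * nm (p.2 : O) / L) = κ / (nm (p.1 : O) * nm (p.2 : O)) := by
      rw [hκ]; field_simp
    rw [gw_prim _ hh, e, hw2 _ (by positivity), VI]
    congr 1
    rw [← integral_const_mul]
    congr 1
    funext y
    have : ((1 / (2 * Real.pi) : ℝ) : ℂ) * ((2 * Real.pi : ℝ) : ℂ) = 1 := by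
      rw [← ofReal_mul, one_div_mul_cancel (by positivity), ofReal_one]
    rw [← mul_assoc, ← mul_assoc, this]
    simp
  have i1 := hF.integrable_Gs hψ σ
  rw [h2, h1]
  have hJ : 0 ≤ ∫ τ : ℝ, Real.exp (-|τ|) * ‖Gs F ψ (σ + τ * I)‖ ^ 2 := integral_nonneg fun τ => by positivity
  refine (norm_VI_le (φ := fun y => 2 * Real.pi * C₀ * L ^ (-σ) *
    (Real.exp (-|y|) * ‖Gs F ψ (σ + y * I)‖ ^ 2 +
      Real.exp (-|-y|) * ‖Gs F ψ (σ + (-y : ℝ) * I)‖ ^ 2)) ((i1.add i1.comp_neg).const_mul _)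
    fun y => ?_).trans ?_
  · have hre : ((σ : ℂ) + y * I).re = σ := by simp
    have him : ((σ : ℂ) + y * I).im = y := by simp
    have hc : conj ((σ : ℂ) + y * I) = σ + (-y : ℝ) * I := by simp
    have g := hw1 y
    have k : κ ^ (-σ) ≤ L ^ (-σ) := Real.rpow_le_rpow_of_nonpos hL hLκ (by linarith)
    rw [Sepa_DD hF hψ hψ hκ0, norm_mul, norm_mul, norm_mul, norm_mul, norm_conj,
      norm_cpow_eq_rpow_re_of_pos hκ0, neg_re, hre, him, hc, abs_neg, norm_real,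
      Real.norm_of_nonneg (by positivity)]
    set u := ‖Gs F ψ (σ + y * I)‖
    set v := ‖Gs F ψ (σ + (-y : ℝ) * I)‖
    have hu : 0 ≤ u := norm_nonneg _
    have hv : 0 ≤ v := norm_nonneg _
    have huv : u * v ≤ u ^ 2 + v ^ 2 := by nlinarith [sq_nonneg (u - v)]
    calc _ ≤ 2 * Real.pi * (C₀ * Real.exp (-|y|)) * (L ^ (-σ) * (u ^ 2 + v ^ 2)) := by gcongr
      _ = _ := by ring
  · rw [integral_const_mul, integral_add i1 i1.comp_neg,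
      integral_neg_eq_self (fun y : ℝ => Real.exp (-|y|) * ‖Gs F ψ (σ + y * I)‖ ^ 2)]
    generalize (∫ τ : ℝ, Real.exp (-|τ|) * ‖Gs F ψ (σ + τ * I)‖ ^ 2) = J at hJ ⊢
    have : 0 ≤ L ^ (-σ) * J := by positivity
    calc _ = 2 * C₀ * (L ^ (-σ) * J) := by field_simp; ring
      _ ≤ _ := by nlinarith

end Crest.Agent.R27.Z
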