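import Crest.Agent.R27.Z.Core
import Crest.Agent.R27.Z.Sep

/-!
Row 27, block MAIN: Lemma P (port of `R17/P/LemP`).  STATEMENTS FROZEN.
-/

set_option autoImplicit false

namespace Crest.Agent.R27.Z

open scoped ComplexConjugate
open Crest.Agent.R17 (LN sj sj_false sj_true norm_sj sj_mul exists_twist)
open Crest.Agent.R17.M1 (norm_sum_sq_le)
open Crest.Agent.R27.Ab
open MeasureTheory

variable [Bd]

theorem cpow_sub_half {m : O} (hm : m ≠ 0) (z : ℂ) :
    (nm m : ℂ) ^ (z - 1 / 2) = (nm m : ℂ) ^ z / (Real.sqrt (nm m) : ℂ) := by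
  rw [Complex.cpow_sub _ _ (Complex.ofReal_ne_zero.2 (nm_pos hm).ne'), Real.sqrt_eq_rpow,
    Complex.ofReal_cpow (nm_nonneg m)]
  norm_num

theorem Gs_eq_Sp (a ρ : O → ℂ) (z : ℂ) (l : O × O × O) (h : O) :
    Gs (fun m => a (l.1 * l.2.1 * l.2.2 * m) * bet (l.1 * l.2.2 ^ 2) h m) ρ z =
      Sp true (dual false a ρ z l) h := by
  refine tsum_congr fun m => ?_
  simp only [dual, bet, sj_true, sj_false, cpow_sub_half (Pr_prim m).ne_zero]
  ring

theorem AdmP.mul_bet {a : O → ℂ} (ha : AdmP a) {d : O} (hd : Prim d) (e h : O) :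
    AdmP fun m => a (d * m) * bet e h m := by
  refine (ha.comp_mul hd).of_le (M := 1) (θ := 0) fun n hn => ?_
  rw [Real.rpow_zero, one_mul, one_mul, norm_mul]
  by_cases h0 : a (d * n) = 0
  · rw [h0, norm_zero, zero_mul]
  · refine mul_le_of_le_one_right (norm_nonneg _) ((norm_bet_le e h
      ((ha.comp_mul hd).osq hn h0)).trans ?_)
    rw [div_le_one (Real.sqrt_pos.2 (nm_pos hn.ne_zero))]
    exact Real.one_le_sqrt.2 (one_le_nm hn.ne_zero)

/-- the characters of the class group -/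
abbrev Ch : Type := AddChar (Additive Cl) ℂ

/-- a character, read on `O` -/
def chO (χ : Ch) (n : O) : ℂ := χ (Additive.ofMul (cls n))

theorem isTw_chO (χ : Ch) : IsTw (chO χ) :=
  ⟨fun ha hb => by rw [chO, cls_mul ha hb, ofMul_mul, AddChar.map_add_eq_mul, chO, chO],
    fun x => χ (Additive.ofMul x), fun _ => χ.norm_apply _, fun _ => rfl⟩

open Classical in
/-- the indicator of a class -/
noncomputable def ind (x : Cl) (n : O) : ℂ := if cls n = x then 1 else 0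

theorem norm_ind_le (x : Cl) (n : O) : ‖ind x n‖ ≤ 1 := by
  unfold ind
  split_ifs <;> simp

theorem sum_ind (n : O) : ∑ x, ind x n = 1 := by
  classical
  simp only [ind]
  rw [Finset.sum_eq_single (cls n) (fun x _ h => if_neg (Ne.symm h)) fun h => absurd (Finset.mem_univ _) h,
    if_pos rfl]

theorem ind_expand (x : Cl) {d : O} (hd : d ≠ 0) : ∃ c : Ch → ℂ, (∀ χ, ‖c χ‖ ≤ 1) ∧
    ∀ m, m ≠ 0 → ind x (d * m) = ∑ χ, c χ * chO χ m := by
  classical
  have hN : (1 : ℝ) ≤ Fintype.card (Additive Cl) := by exact_mod_cast Fintype.card_pos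
  have hN' : (Fintype.card (Additive Cl) : ℂ) ≠ 0 := by exact_mod_cast Fintype.card_ne_zero
  refine ⟨fun χ => χ (Additive.ofMul (cls d * x⁻¹)) / Fintype.card (Additive Cl), fun χ => ?_, fun m hm => ?_⟩
  · rw [norm_div, χ.norm_apply, Complex.norm_natCast]
    exact div_le_one_of_le₀ hN (by positivity)
  · have h := AddChar.sum_apply_eq_ite (α := Additive Cl) (Additive.ofMul (cls d * x⁻¹ * cls m))
    simp only [chO, div_mul_eq_mul_div, ← AddChar.map_add_eq_mul, ← ofMul_mul]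
    rw [← Finset.sum_div, h, ind, cls_mul hd hm]
    simp only [ofMul_eq_zero, mul_right_comm _ x⁻¹, mul_inv_eq_one]
    split_ifs
    · rw [div_self hN']
    · rw [zero_div]

theorem norm_mul_ind_le (a : O → ℂ) (x : Cl) (n : O) : ‖a n * ind x n‖ ≤ ‖a n‖ := by
  rw [norm_mul]
  exact mul_le_of_le_one_right (norm_nonneg _) (norm_ind_le x n)

theorem AdmP.mul_ind {a : O → ℂ} (ha : AdmP a) (x : Cl) : AdmP fun n => a n * ind x n :=
  ha.of_le (M := 1) (θ := 0) fun n _ => by simpa using norm_mul_ind_le a x n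

theorem cls_of_ind {x : Cl} {n : O} (h : ind x n ≠ 0) : cls n = x := by
  by_contra h'
  exact h (if_neg h')

theorem oneCls_ind (a : O → ℂ) (x : Cl) : OneCls fun n => a n * ind x n := fun _ _ _ _ h h' =>
  (cls_of_ind (right_ne_zero_of_mul h)).trans (cls_of_ind (right_ne_zero_of_mul h')).symm

theorem AdmP.En_le {a : O → ℂ} (ha : AdmP a) {K : ℝ} (hK : 0 < K) :
    En false a K ≤ Fintype.card Cl * ∑ x, En false (fun n => a n * ind x n) K := by
  have hs := fun x => (ha.mul_ind x).summable_En false hK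
  unfold En
  rw [← Summable.tsum_finsetSum fun x _ => hs x, ← tsum_mul_left]
  refine (ha.summable_En false hK).tsum_le_tsum (fun k => ?_) ((summable_sum fun x _ => hs x).mul_left _)
  have e : Sp false a k = ∑ x, Sp false (fun n => a n * ind x n) k := by
    unfold Sp
    rw [← Summable.tsum_finsetSum fun x _ => (ha.mul_ind x).summable false k]
    refine tsum_congr fun n => ?_
    rw [← Finset.sum_mul, ← Finset.mul_sum, sum_ind, mul_one]
  rw [e, ← Finset.mul_sum, mul_left_comm]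
  exact mul_le_mul_of_nonneg_left (norm_sum_sq_le _ _) (gw_nonneg K k)

/-- one label, one row and one class -/
theorem lemmaP_one {σ : ℝ} (hσ : 0 < σ) : ∃ C : ℝ, 0 < C ∧ ∀ (a η : O → ℂ) (K Y : ℝ) (l : O × O × O)
    (h : O), AdmP a → IsTw η → 0 < K → l ∈ Lab Y → Prim h →
    (∀ χ : Ch, Integrable fun τ : ℝ => Real.exp (-|τ|) *
      ‖Sp true (dual false a (fun m => chO χ m * η m) (σ + τ * Complex.I) l) h‖ ^ 2) ∧
    ∀ x : Cl, K / (nm l.1 * nm l.2.2) *
      ‖∑' p : Pr × Pr, a (l.1 * l.2.1 * l.2.2 * p.1) * ind x (l.1 * l.2.1 * l.2.2 * p.1) *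
        conj (a (l.1 * l.2.1 * l.2.2 * p.2) * ind x (l.1 * l.2.1 * l.2.2 * p.2)) *
        Tm (K / (nm l.1 * nm l.2.2 ^ 2)) (l.1 * l.2.2 ^ 2) h p.1 p.2‖ ≤
      C * ∑ χ : Ch, pre σ K l * ∫ τ : ℝ, Real.exp (-|τ|) *
        ‖Sp true (dual false a (fun m => chO χ m * η m) (σ + τ * Complex.I) l) h‖ ^ 2 := by
  obtain ⟨C, hC, H⟩ := sep_one hσ
  have hN : (0 : ℝ) < Fintype.card Ch := by exact_mod_cast Fintype.card_pos
  refine ⟨C * Fintype.card Ch, by positivity, fun a η K Y l h ha hη hK hl hh => ?_⟩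
  obtain ⟨h1, h2, h3, -⟩ := mem_Lab'.1 hl
  have hd := (h1.mul h2).mul h3
  have hF := ha.mul_bet hd (l.1 * l.2.2 ^ 2) h
  have p1 := nm_pos h1.ne_zero
  have p3 := nm_pos h3.ne_zero
  have hle := fun χ : Ch => ((isTw_chO χ).mul' hη).norm_le
  have hi := fun χ : Ch => hF.integrable_Gs (hle χ) σ
  refine ⟨fun χ => by simpa only [← Gs_eq_Sp] using hi χ, fun x => ?_⟩
  set d := l.1 * l.2.1 * l.2.2 with hdd
  have hψ : ∀ m, ‖ind x (d * m) * η m‖ ≤ 1 := fun m => by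
    rw [norm_mul, hη.norm_eq, mul_one]
    exact norm_ind_le _ _
  have key := H _ (fun m => ind x (d * m) * η m) (K / (nm l.1 * nm l.2.2 ^ 2)) h hF hψ (by positivity) hh
  have e : ∀ p : Pr × Pr, a (d * p.1) * ind x (d * p.1) * conj (a (d * p.2) * ind x (d * p.2)) *
      Tm (K / (nm l.1 * nm l.2.2 ^ 2)) (l.1 * l.2.2 ^ 2) h p.1 p.2 =
      a (d * p.1) * bet (l.1 * l.2.2 ^ 2) h p.1 * (ind x (d * p.1) * η p.1) *
        conj (a (d * p.2) * bet (l.1 * l.2.2 ^ 2) h p.2 * (ind x (d * p.2) * η p.2)) *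
        (gw (nm p.1 * nm p.2 / (K / (nm l.1 * nm l.2.2 ^ 2))) h : ℝ) := fun p => by
    by_cases i1 : ind x (d * p.1) = 0
    · simp [i1]
    by_cases i2 : ind x (d * p.2) = 0
    · simp [i2]
    have hc := cls_cancel hd.ne_zero (Pr_prim p.1).ne_zero (Pr_prim p.2).ne_zero
      ((cls_of_ind i1).trans (cls_of_ind i2).symm)
    have e1 : η p.1 * conj (η p.2) = 1 := by
      obtain ⟨ρ, r1, r2⟩ := hη.ex
      rw [r2, r2, hc, Complex.mul_conj', r1]
      norm_num
    simp only [Tm, map_mul]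
    linear_combination -(a (d * p.1) * ind x (d * p.1) * conj (a (d * p.2)) * conj (ind x (d * p.2)) *
      bet (l.1 * l.2.2 ^ 2) h p.1 * conj (bet (l.1 * l.2.2 ^ 2) h p.2) *
      (gw (nm p.1 * nm p.2 / (K / (nm l.1 * nm l.2.2 ^ 2))) h : ℝ)) * e1
  obtain ⟨c, hc, hc'⟩ := ind_expand x hd.ne_zero
  have k2 : ∀ z, ‖Gs (fun m => a (d * m) * bet (l.1 * l.2.2 ^ 2) h m) (fun m => ind x (d * m) * η m) z‖ ^ 2 ≤
      Fintype.card Ch * ∑ χ : Ch,
        ‖Gs (fun m => a (d * m) * bet (l.1 * l.2.2 ^ 2) h m) (fun m => chO χ m * η m) z‖ ^ 2 := fun z => by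
    have e2 : Gs (fun m => a (d * m) * bet (l.1 * l.2.2 ^ 2) h m) (fun m => ind x (d * m) * η m) z =
        ∑ χ : Ch, c χ * Gs (fun m => a (d * m) * bet (l.1 * l.2.2 ^ 2) h m) (fun m => chO χ m * η m) z := by
      simp only [Gs, ← tsum_mul_left]
      rw [← Summable.tsum_finsetSum fun χ _ => (Sepa_summable hF (hle χ) z).of_norm.mul_left (c χ)]
      refine tsum_congr fun m => ?_
      rw [hc' m (Pr_prim m).ne_zero, Finset.sum_mul, Finset.mul_sum, Finset.sum_mul]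
      exact Finset.sum_congr rfl fun χ _ => by ring
    rw [e2]
    refine (norm_sum_sq_le _ _).trans (mul_le_mul_of_nonneg_left (Finset.sum_le_sum fun χ _ => ?_) hN.le)
    rw [norm_mul]
    exact pow_le_pow_left₀ (by positivity) (mul_le_of_le_one_left (norm_nonneg _) (hc χ)) 2
  have k3 := integral_mono (hF.integrable_Gs hψ σ)
    ((integrable_finsetSum Finset.univ fun χ _ => hi χ).const_mul (Fintype.card Ch : ℝ)) fun τ => by
      have := mul_le_mul_of_nonneg_left (k2 (σ + τ * Complex.I)) (Real.exp_pos (-|τ|)).le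
      simp only
      rwa [mul_left_comm, Finset.mul_sum] at this
  rw [integral_const_mul, integral_finsetSum _ fun χ _ => hi χ] at k3
  have k4 := key.trans (mul_le_mul_of_nonneg_left k3 (by positivity))
  simp only [hdd, Gs_eq_Sp] at k4
  rw [tsum_congr e, ← Finset.mul_sum]
  refine (mul_le_mul_of_nonneg_left k4 (by positivity)).trans_eq ?_
  rw [pre, Real.rpow_neg (by positivity), ← Real.inv_rpow (by positivity), inv_div]
  ring

/-- sign `+`, with a label-dependent extra character -/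
theorem lemmaP0 (σ : ℝ) (hσ : 0 < σ) (A : ℕ) (hA : 2 ≤ A) : ∃ C : ℝ, 0 < C ∧
    ∀ {ι : Type} (I : Finset ι) (a : ι → O → ℂ) (η : ι → O × O × O → O → ℂ) (w K X : ι → ℝ) (T : ℝ),
    1 ≤ T → (∀ i ∈ I, AdmP (a i) ∧ 0 ≤ w i ∧ 0 < K i ∧ 0 < X i) → (∀ i l, IsTw (η i l)) →
    ∃ (τ : ℝ) (ρ : O → ℂ), IsTw ρ ∧
      ∑ i ∈ I, w i * En false (a i) (K i) ≤ ∑ i ∈ I, w i * (C * (K i * l2 (a i)) +
        C * Real.exp (-|τ| / 2) * ∑ l ∈ Lab (X i * T), pre σ (K i) l *
          ∑ h ∈ rows (len (K i) (X i) T l),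
            ‖Sp true (dual false (a i) (fun m => ρ m * η i l m) (σ + τ * Complex.I) l) h‖ ^ 2 +
        C * tail A (a i) (X i) T) := by
  obtain ⟨C₁, hC₁, H₁⟩ := core1 A hA
  obtain ⟨C₂, hC₂, H₂⟩ := lemmaP_one hσ
  obtain ⟨C₃, hC₃, H₃⟩ := exists_twist
  obtain ⟨N, hN⟩ : ∃ N : ℝ, N = Fintype.card Cl := ⟨_, rfl⟩
  have hN0 : 0 < N := by rw [hN]; exact_mod_cast Fintype.card_pos
  have hw0 := w0_pos
  refine ⟨N * N * (w0 + C₁ + C₂ * (C₃ * (Finset.univ : Finset Ch).card)), by positivity,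
    fun I a η w K X T hT hI hη => ?_⟩
  obtain ⟨G, hG⟩ : ∃ G : Ch → _ → (O × O × O) → O → ℝ → ℝ, ∀ ρ i l h τ, G ρ i l h τ =
      ‖Sp true (dual false (a i) (fun m => chO ρ m * η i l m) (σ + τ * Complex.I) l) h‖ ^ 2 :=
    ⟨_, fun _ _ _ _ _ => rfl⟩
  have hG0 : ∀ ρ i l h τ, 0 ≤ G ρ i l h τ := fun ρ i l h τ => by rw [hG]; positivity
  have hM : ∀ ρ τ, ∀ i ∈ I, 0 ≤ ∑ l ∈ Lab (X i * T), pre σ (K i) l *
      ∑ h ∈ rows (len (K i) (X i) T l), G ρ i l h τ := fun ρ τ i hi =>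
    Finset.sum_nonneg fun l _ => mul_nonneg (pre_nonneg σ (hI i hi).2.2.1 l)
      (Finset.sum_nonneg fun h _ => hG0 _ _ _ _ _)
  obtain ⟨ρ, -, τ, hτ⟩ := H₃ (Finset.univ : Finset Ch) (fun ρ τ => ∑ i ∈ I, w i * ∑ l ∈ Lab (X i * T),
      pre σ (K i) l * ∑ h ∈ rows (len (K i) (X i) T l), G ρ i l h τ) Finset.univ_nonempty
    fun ρ τ => Finset.sum_nonneg fun i hi => mul_nonneg (hI i hi).2.1 (hM ρ τ i hi)
  refine ⟨τ, chO ρ, isTw_chO ρ, ?_⟩
  simp only [← hG]
  have hone := fun i (hi : i ∈ I) l (hl : l ∈ Lab (X i * T)) h (hh : h ∈ rows (len (K i) (X i) T l)) =>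
    H₂ (a i) (η i l) (K i) _ l h (hI i hi).1 (hη i l) (hI i hi).2.2.1 hl (mem_rows.1 hh).1
  simp only [← hG] at hone
  have hint : ∀ ρ ∈ (Finset.univ : Finset Ch), ∫ τ : ℝ, Real.exp (-|τ|) * ∑ i ∈ I, w i * ∑ l ∈ Lab (X i * T),
      pre σ (K i) l * ∑ h ∈ rows (len (K i) (X i) T l), G ρ i l h τ =
      ∑ i ∈ I, w i * ∑ l ∈ Lab (X i * T), ∑ h ∈ rows (len (K i) (X i) T l),
        pre σ (K i) l * ∫ τ : ℝ, Real.exp (-|τ|) * G ρ i l h τ := fun ρ _ => by
    have e : ∀ τ : ℝ, Real.exp (-|τ|) * ∑ i ∈ I, w i * ∑ l ∈ Lab (X i * T),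
        pre σ (K i) l * ∑ h ∈ rows (len (K i) (X i) T l), G ρ i l h τ =
        ∑ i ∈ I, ∑ l ∈ Lab (X i * T), ∑ h ∈ rows (len (K i) (X i) T l),
          w i * (pre σ (K i) l * (Real.exp (-|τ|) * G ρ i l h τ)) := fun τ => by
      simp only [Finset.mul_sum]
      exact Finset.sum_congr rfl fun i _ => Finset.sum_congr rfl fun l _ =>
        Finset.sum_congr rfl fun h _ => by ring
    have i1 := fun i hi l hl h hh =>
      (((hone i hi l hl h hh).1 ρ).const_mul (pre σ (K i) l)).const_mul (w i)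
    simp only [e]
    rw [integral_finsetSum _ fun i hi => integrable_finsetSum _ fun l hl =>
      integrable_finsetSum _ fun h hh => i1 i hi l hl h hh]
    refine Finset.sum_congr rfl fun i hi => ?_
    rw [integral_finsetSum _ fun l hl => integrable_finsetSum _ fun h hh => i1 i hi l hl h hh,
      Finset.mul_sum]
    refine Finset.sum_congr rfl fun l hl => ?_
    rw [integral_finsetSum _ fun h hh => i1 i hi l hl h hh, Finset.mul_sum]
    exact Finset.sum_congr rfl fun h _ => by rw [integral_const_mul, integral_const_mul]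
  rw [Finset.sum_congr rfl hint, Finset.sum_comm] at hτ
  have h1 : ∑ i ∈ I, w i * En false (a i) (K i) ≤ ∑ i ∈ I, (w i * (N * N * (w0 * (K i * l2 (a i)) +
      C₁ * tail A (a i) (X i) T)) + N * N * C₂ * ∑ ρ : Ch, w i * ∑ l ∈ Lab (X i * T),
        ∑ h ∈ rows (len (K i) (X i) T l),
          pre σ (K i) l * ∫ τ : ℝ, Real.exp (-|τ|) * G ρ i l h τ) := by
    refine Finset.sum_le_sum fun i hi => ?_
    obtain ⟨ha, hw, hK, hX⟩ := hI i hi
    have h2 := fun x : Cl => (H₁ _ (K i) (X i) T (ha.mul_ind x) (oneCls_ind _ x) hK hX hT).trans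
      (add_le_add (add_le_add
        (mul_le_mul_of_nonneg_left (l2_mono ha fun n _ => norm_mul_ind_le _ x n) (by positivity))
        (Finset.sum_le_sum fun l hl => Finset.sum_le_sum fun h hh => (hone i hi l hl h hh).2 x))
        (mul_le_mul_of_nonneg_left (tail_mono ha (fun n _ => norm_mul_ind_le _ x n) A hX (by linarith))
          hC₁.le))
    have h3 := (ha.En_le hK).trans (mul_le_mul_of_nonneg_left
      (Finset.sum_le_card_nsmul _ _ _ fun x _ => h2 x) (by positivity))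
    rw [nsmul_eq_mul, Finset.card_univ, ← hN] at h3
    refine (mul_le_mul_of_nonneg_left h3 hw).trans_eq ?_
    simp only [← Finset.mul_sum, Finset.sum_comm (s := (Finset.univ : Finset Ch))]
    ring
  rw [Finset.sum_add_distrib, ← Finset.mul_sum] at h1
  refine (h1.trans (add_le_add_right (mul_le_mul_of_nonneg_left hτ (by positivity)) _)).trans ?_
  simp only [Finset.mul_sum I, ← Finset.sum_add_distrib]
  refine Finset.sum_le_sum fun i hi => ?_
  obtain ⟨ha, hw, hK, hX⟩ := hI i hi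
  have t0 : 0 ≤ tail A (a i) (X i) T := by
    unfold tail
    positivity
  have t1 : 0 ≤ K i * l2 (a i) := mul_nonneg hK.le (tsum_nonneg fun _ => sq_nonneg _)
  have t2 := mul_nonneg (Real.exp_pos (-|τ| / 2)).le (hM ρ τ i hi)
  simp only [mul_assoc _ (Real.exp _), mul_left_comm (Real.exp _) (w i)]
  generalize Real.exp (-|τ| / 2) * _ = M at t2 ⊢
  generalize K i * l2 (a i) = L at t1 ⊢
  generalize tail A (a i) (X i) T = Q at t0 ⊢
  have : 0 ≤ w i * (N * N) * ((C₁ + C₂ * (C₃ * (Finset.univ : Finset Ch).card)) * L + (w0 + C₁) * M +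
    (w0 + C₂ * (C₃ * (Finset.univ : Finset Ch).card)) * Q) := by positivity
  linarith

theorem AdmP.conj {a : O → ℂ} (ha : AdmP a) : AdmP fun n => conj (a n) :=
  ha.of_le (M := 1) (θ := 0) fun n _ => by simp

theorem En_true (a : O → ℂ) (K : ℝ) : En true a K = En false (fun n => conj (a n)) K :=
  tsum_congr fun k => by rw [← RCLike.norm_conj (Sp true a k), conj_Sp]; rfl

theorem conj_dual (a ρ : O → ℂ) (σ τ : ℝ) (l : O × O × O) (m : O) :
    conj (dual false (fun n => conj (a n)) ρ (σ + τ * Complex.I) l m) =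
      dual true a (fun n => conj (ρ n)) (σ + (-τ : ℝ) * Complex.I) l m := by
  have e : conj ((nm m : ℂ) ^ ((σ : ℂ) + τ * Complex.I - 1 / 2)) =
      (nm m : ℂ) ^ ((σ : ℂ) + (-τ : ℝ) * Complex.I - 1 / 2) := by
    have h := Complex.cpow_conj (nm m : ℂ) ((σ : ℂ) + τ * Complex.I - 1 / 2)
      (by rw [Complex.arg_ofReal_of_nonneg (nm_nonneg m)]; exact Real.pi_pos.ne)
    rw [Complex.conj_ofReal] at h
    rw [← h]
    congr 1
    simp [map_ofNat]
  simp only [dual, sj_false, sj_true, map_mul, Complex.conj_conj, e]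

/-- sign `−`, with a label-dependent extra character -/
theorem lemmaP1 (σ : ℝ) (hσ : 0 < σ) (A : ℕ) (hA : 2 ≤ A) : ∃ C : ℝ, 0 < C ∧
    ∀ {ι : Type} (I : Finset ι) (s : Bool) (a : ι → O → ℂ) (η : ι → O × O × O → O → ℂ)
    (w K X : ι → ℝ) (T : ℝ),
    1 ≤ T → (∀ i ∈ I, AdmP (a i) ∧ 0 ≤ w i ∧ 0 < K i ∧ 0 < X i) → (∀ i l, IsTw (η i l)) →
    ∃ (τ : ℝ) (ρ : O → ℂ), IsTw ρ ∧
      ∑ i ∈ I, w i * En s (a i) (K i) ≤ ∑ i ∈ I, w i * (C * (K i * l2 (a i)) +
        C * Real.exp (-|τ| / 2) * ∑ l ∈ Lab (X i * T), pre σ (K i) l *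
          ∑ h ∈ rows (len (K i) (X i) T l),
            ‖Sp (!s) (dual s (a i) (fun m => ρ m * η i l m) (σ + τ * Complex.I) l) h‖ ^ 2 +
        C * tail A (a i) (X i) T) := by
  obtain ⟨C, hC, H⟩ := lemmaP0 σ hσ A hA
  refine ⟨C, hC, fun I s a η w K X T hT hI hη => ?_⟩
  cases s
  · exact H I a η w K X T hT hI hη
  obtain ⟨τ, ρ, hρ, h⟩ := H I (fun i n => conj (a i n)) (fun i l n => conj (η i l n)) w K X T hT
    (fun i hi => ⟨(hI i hi).1.conj, (hI i hi).2⟩) fun i l => (hη i l).conj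
  refine ⟨-τ, fun n => conj (ρ n), hρ.conj, ?_⟩
  have e : ∀ i l h, ‖Sp true (dual false (fun n => conj (a i n)) (fun m => ρ m * conj (η i l m))
      (σ + τ * Complex.I) l) h‖ = ‖Sp (!true) (dual true (a i) (fun m => conj (ρ m) * η i l m)
        (σ + (-τ : ℝ) * Complex.I) l) h‖ := fun i l h => by
    rw [← RCLike.norm_conj, conj_Sp]
    simp only [conj_dual, map_mul, Complex.conj_conj]
  simp only [e, l2, tail, RCLike.norm_conj] at h
  simpa only [En_true, abs_neg, l2, tail] using h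

/-- **Lemma P** (both signs, families). -/
theorem lemmaP (σ : ℝ) (hσ : 0 < σ) (A : ℕ) (hA : 2 ≤ A) : ∃ C : ℝ, 0 < C ∧
    ∀ {ι : Type} (I : Finset ι) (s : Bool) (a : ι → O → ℂ) (w K X : ι → ℝ) (T : ℝ), 1 ≤ T →
    (∀ i ∈ I, AdmP (a i) ∧ 0 ≤ w i ∧ 0 < K i ∧ 0 < X i) →
    ∃ (τ : ℝ) (ρ : O → ℂ), IsTw ρ ∧
      ∑ i ∈ I, w i * En s (a i) (K i) ≤ ∑ i ∈ I, w i * (C * (K i * l2 (a i)) +
        C * Real.exp (-|τ| / 2) * ∑ l ∈ Lab (X i * T), pre σ (K i) l *
          ∑ h ∈ rows (len (K i) (X i) T l),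
            ‖Sp (!s) (dual s (a i) ρ (σ + τ * Complex.I) l) h‖ ^ 2 +
        C * tail A (a i) (X i) T) := by
  obtain ⟨C, hC, H⟩ := lemmaP1 σ hσ A hA
  refine ⟨C, hC, fun I s a w K X T hT hI => ?_⟩
  obtain ⟨τ, ρ, hρ, h⟩ := H I s a (fun _ _ _ => 1) w K X T hT hI fun _ _ => isTw_one
  exact ⟨τ, _, hρ.mul' isTw_one, h⟩

/-- the Gauss sums cancel -/
theorem Sp_dual_gauss {b : O → ℂ} (hb : AdmP b) (ρ : O → ℂ) (v h : O) (z : ℂ) {Y : ℝ}
    {l : O × O × O} (hl : l ∈ Lab Y) :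
    ‖Sp false (dual true (fun m => b m * gt m * sx v m)
        (fun m => ρ m * hs (cls (l.1 * l.2.1 * l.2.2)) (cls m)) z l) h‖ ≤
      ‖Sp false (child b ρ z l) (h * v * l.1 * l.2.1 ^ 2)‖ := by
  obtain ⟨e, f, j⟩ := l
  obtain ⟨h1, h2, h3, h4, h5, -⟩ := mem_Lab.1 hl
  have hd : Osq (e * f * j) := ⟨h4, h5⟩
  have key : Sp false (dual true (fun m => b m * gt m * sx v m)
      (fun m => ρ m * hs (cls (e * f * j)) (cls m)) z (e, f, j)) h =
      gt (e * f * j) * sx v (e * f * j) * Sp false (child b ρ z (e, f, j)) (h * v * e * f ^ 2) := by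
    rw [Sp, Sp, ← tsum_mul_left]
    refine tsum_congr fun m => ?_
    simp only [dual, child, sj_true, sj_false]
    by_cases h0 : b (e * f * j * m) = 0
    · simp only [h0, zero_mul, mul_zero]
    have hdm := hb.osq (h4.mul (Pr_prim m)) h0
    have hm := hdm.right h4
    have hc := hdm.coprime
    have m6 := hm.1.ne_zero
    have e2 : hs (cls (e * f * j)) (cls (m : O)) * hs (cls (m : O)) (cls (e * f * j)) = 1 := by
      rw [hs_swap h4.ne_zero m6, hs_mul_conj]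
    have e3 : gt m * conj (gt m) = 1 := by
      rw [Complex.mul_conj, Complex.normSq_eq_norm_sq, hm.norm_gt]
      norm_num
    have e4 : sx e m * conj (sx e m) = 1 := by
      rw [sx_mul_conj, if_pos ⟨m6, hc.of_mul_left_left.of_mul_left_left⟩]
    have e5 : sx j m * conj (sx j m) = 1 := by
      rw [sx_mul_conj, if_pos ⟨m6, hc.of_mul_left_right⟩]
    rw [hdm.gt_mul h4, sx_mul_right]
    simp only [sx_mul_left, sx_pow_left _ _ two_ne_zero, map_mul, map_pow]
    set c := b (e * f * j * m) * ρ m * (nm m : ℂ) ^ (z - 1 / 2) * gt (e * f * j) *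
      sx v (e * f * j) * sx h m * sx v m * sx e m * sx f m ^ 2 with hc'
    calc _ = c * (hs (cls (e * f * j)) (cls (m : O)) * hs (cls (m : O)) (cls (e * f * j))) * (gt m * conj (gt m)) *
          (sx e m * conj (sx e m)) * (sx j m * conj (sx j m)) ^ 2 := by rw [hc']; ring
      _ = _ := by rw [e2, e3, e4, e5, hc']; ring
  rw [key, norm_mul, norm_mul, hd.norm_gt, one_mul]
  exact mul_le_of_le_one_left (norm_nonneg _) (norm_sx_le _ _)

/-- **Lemma P, second step**: sign `−` for the Gauss-weighted coefficients `b(m) g̃_1(m) χ_m(v)`;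
the Gauss sums cancel and `b` comes back at the rows `h · v · e · f²`. -/
theorem lemmaP2 (σ : ℝ) (hσ : 0 < σ) (A : ℕ) (hA : 2 ≤ A) : ∃ C : ℝ, 0 < C ∧
    ∀ {ι : Type} (I : Finset ι) (b : ι → O → ℂ) (v : ι → O) (w K X : ι → ℝ) (T : ℝ), 1 ≤ T →
    (∀ i ∈ I, AdmP (b i) ∧ 0 ≤ w i ∧ 0 < K i ∧ 0 < X i) →
    ∃ (τ : ℝ) (ρ : O → ℂ), IsTw ρ ∧
      ∑ i ∈ I, w i * En true (fun m => b i m * gt m * sx (v i) m) (K i) ≤
        ∑ i ∈ I, w i * (C * (K i * l2 (b i)) +
        C * Real.exp (-|τ| / 2) * ∑ l ∈ Lab (X i * T), pre σ (K i) l *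
          ∑ h ∈ rows (len (K i) (X i) T l),
            ‖Sp false (child (b i) ρ (σ + τ * Complex.I) l) (h * v i * l.1 * l.2.1 ^ 2)‖ ^ 2 +
        C * tail A (b i) (X i) T) := by
  classical
  obtain ⟨C, hC, H⟩ := lemmaP1 σ hσ A hA
  refine ⟨C, hC, fun I b v w K X T hT hI => ?_⟩
  obtain ⟨τ, ρ, hρ, h⟩ := H I true (fun i m => b i m * gt m * sx (v i) m)
    (fun _ l m => hs (cls (l.1 * l.2.1 * l.2.2)) (cls m)) w K X T hT
    (fun i hi => ⟨(hI i hi).1.gauss _, (hI i hi).2⟩) fun _ l => isTw_hs_right _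
  refine ⟨τ, ρ, hρ, h.trans (Finset.sum_le_sum fun i hi => ?_)⟩
  obtain ⟨hb, hw, hK, hX⟩ := hI i hi
  refine mul_le_mul_of_nonneg_left (add_le_add (add_le_add
    (mul_le_mul_of_nonneg_left
      (mul_le_mul_of_nonneg_left (l2_mono hb fun n hn => hb.norm_gauss_le _ hn) hK.le) hC.le)
    (mul_le_mul_of_nonneg_left (Finset.sum_le_sum fun l hl => mul_le_mul_of_nonneg_left
      (Finset.sum_le_sum fun h _ => pow_le_pow_left₀ (norm_nonneg _) ?_ 2) (pre_nonneg σ hK l))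
      (by positivity)))
    (mul_le_mul_of_nonneg_left (tail_mono hb (fun n hn => hb.norm_gauss_le _ hn) A hX
      (by linarith)) hC.le)) hw
  exact Sp_dual_gauss hb ρ _ h _ hl

end Crest.Agent.R27.Z
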