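import Crest.Agent.R27.Z.Glue

/-!
Row 27, block MAIN (port of `R17/P`): Poisson summation for one pair of columns.
-/

set_option autoImplicit false

namespace Crest.Agent.R27.Z

open scoped ComplexConjugate
open Crest.Agent.R17 (LN sj sj_false sj_true norm_sj sj_mul)
open Crest.Agent.R27.Ab

variable [Bd]

theorem norm_bet_le (e h : O) {n : O} (hn : Osq n) : ‖bet e h n‖ ≤ 1 / Real.sqrt (nm n) := by
  rw [bet, norm_div, norm_mul, norm_mul, hn.norm_gt, one_mul, Complex.norm_conj, Complex.norm_real,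
    Real.norm_of_nonneg (Real.sqrt_nonneg _)]
  refine div_le_div_of_nonneg_right ?_ (Real.sqrt_nonneg _)
  exact mul_le_one₀ (norm_sx_le _ _) (norm_nonneg _) (norm_sx_le _ _)

theorem norm_Tm_le (L : ℝ) (e h : O) {n₁ n₂ : O} (h₁ : Osq n₁) (h₂ : Osq n₂) :
    ‖Tm L e h n₁ n₂‖ ≤ gw (nm n₁ * nm n₂ / L) h / (Real.sqrt (nm n₁) * Real.sqrt (nm n₂)) := by
  have g0 := gw_nonneg (nm n₁ * nm n₂ / L) h
  rw [Tm, norm_mul, norm_mul, Complex.norm_conj, Complex.norm_real,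
    Real.norm_of_nonneg g0]
  have b1 := norm_bet_le e h h₁
  have b2 := norm_bet_le e h h₂
  calc _ ≤ 1 / Real.sqrt (nm n₁) * (1 / Real.sqrt (nm n₂)) * gw (nm n₁ * nm n₂ / L) h := by
        gcongr
    _ = _ := by rw [one_div_mul_one_div, one_div_mul_eq_div]

theorem summable_Tm {L : ℝ} (hL : 0 < L) (e : O) {n₁ n₂ : O} (h₁ : Osq n₁) (h₂ : Osq n₂) :
    Summable fun h : O => Tm L e h n₁ n₂ := by
  have hp : 0 < nm n₁ * nm n₂ / L := div_pos (mul_pos (nm_pos h₁.1.ne_zero) (nm_pos h₂.1.ne_zero)) hL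
  exact Summable.of_norm_bounded ((summable_gw hp).div_const _) fun h => norm_Tm_le L e h h₁ h₂

theorem PairAa_bet_zero (e : O) {n : O} (hn : Osq n) (h : n ≠ 1) : bet e 0 n = 0 := by
  have : sx 0 n = 0 := sx_eq_zero_of_not_coprime fun hc =>
    h (hn.1.eq_one_of_isUnit (isCoprime_zero_left.1 hc))
  rw [bet, this]
  simp

open Classical in
/-- `sx 0 n = 0` unless `n` is a unit -/
theorem Tm_zero (L : ℝ) (e : O) {n₁ n₂ : O} (h₁ : Osq n₁) (h₂ : Osq n₂) :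
    Tm L e 0 n₁ n₂ = if n₁ = 1 ∧ n₂ = 1 then (w0 : ℂ) else 0 := by
  split_ifs with h
  · obtain ⟨rfl, rfl⟩ := h
    simp [Tm, bet, gt_one, sx_one_right, gw_zero]
  · rcases not_and_or.1 h with h | h
    · rw [Tm, PairAa_bet_zero e h₁ h]; simp
    · rw [Tm, PairAa_bet_zero e h₂ h]; simp

/-- `Osq.gt_mul` -/
theorem bet_mul (e h : O) {j m : O} (hj : Prim j) (hm : Osq (j * m)) :
    bet e h (j * m) = bet e h j * hs (cls m) (cls j) * bet (e * j ^ 2) h m := by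
  rw [bet, bet, bet, hm.gt_mul hj, sx_mul_right, sx_mul_right, sx_mul_left, nm_mul,
    Real.sqrt_mul (nm_nonneg j), map_mul]
  push_cast
  ring

theorem cls_cancel {g n₁ n₂ : O} (hg : g ≠ 0) (h₁ : n₁ ≠ 0) (h₂ : n₂ ≠ 0)
    (h : cls (g * n₁) = cls (g * n₂)) : cls n₁ = cls n₂ := by
  rw [cls_mul hg h₁, cls_mul hg h₂] at h
  exact mul_left_cancel h

theorem Tm_mul (L : ℝ) (e h : O) {j m₁ m₂ : O} (hj : Prim j) (h₁ : Osq (j * m₁))
    (h₂ : Osq (j * m₂)) (hc : cls m₁ = cls m₂) :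
    Tm L e h (j * m₁) (j * m₂) =
      ((‖bet e h j‖ ^ 2 : ℝ) : ℂ) * Tm (L / nm j ^ 2) (e * j ^ 2) h m₁ m₂ := by
  have e0 := hs_mul_conj (cls m₂) (cls j)
  have hl : nm (j * m₁) * nm (j * m₂) / L = nm m₁ * nm m₂ / (L / nm j ^ 2) := by
    rw [nm_mul, nm_mul, div_div_eq_mul_div]
    ring
  have hb : ((‖bet e h j‖ ^ 2 : ℝ) : ℂ) = bet e h j * conj (bet e h j) := by
    rw [Complex.mul_conj, Complex.normSq_eq_norm_sq]
  rw [Tm, Tm, bet_mul e h hj h₁, bet_mul e h hj h₂, hl, hb, hc, map_mul, map_mul]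
  linear_combination (bet e h j * conj (bet e h j) * bet (e * j ^ 2) h m₁ *
    conj (bet (e * j ^ 2) h m₂) * (gw (nm m₁ * nm m₂ / (L / nm j ^ 2)) h : ℝ)) * e0

theorem PairAb_inv {n₁ n₂ : O} (h₁ : n₁ ≠ 0) (h₂ : n₂ ≠ 0) (hc : cls n₁ = cls n₂) :
    UInv fun y => sx y n₁ ^ 1 * sx y n₂ ^ 5 := fun u a hu => by
  have e0 := hs_pow_six (cls u) (cls n₂)
  simp only [sx_mul_left, sx_unit_left hu h₁, sx_unit_left hu h₂, hc]
  linear_combination (sx a n₁ * sx a n₂ ^ 5) * e0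

theorem PairAb_per (n₁ n₂ : O) : Per (n₁ * n₂) fun y => sx y n₁ ^ 1 * sx y n₂ ^ 5 :=
  (((per_sx n₁).comp (· ^ 1)).mono (dvd_mul_right _ _)).mul
    (((per_sx n₂).comp (· ^ 5)).mono (dvd_mul_left _ _))

/-- `poisson` with `Q = n₁ n₂`, `Ψ y = sx y n₁ ^ 1 * sx y n₂ ^ 5`; `FT_sx_mul`, `conj_sx`,
`sx_mul_conj_swap`, `gs_sqfree`, `gs_five` -/
theorem poisson_cop {L : ℝ} (hL : 0 < L) (e : O) {n₁ n₂ : O} (h₁ : Osq n₁) (h₂ : Osq n₂)
    (h : IsCoprime n₁ n₂) (hc : cls n₁ = cls n₂) :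
    ∑' k : O, sx (e * k) n₁ * conj (sx (e * k) n₂) * (gw L k : ℝ) =
      L * ∑' h : O, Tm L e h n₁ n₂ := by
  have a1 := h₁.1.ne_zero
  have a2 := h₂.1.ne_zero
  have e1 : ∀ k : O, sx (e * k) n₁ * conj (sx (e * k) n₂) * (gw L k : ℝ) =
      sx e n₁ * conj (sx e n₂) * (sx k n₁ ^ 1 * sx k n₂ ^ 5 * (gw L k : ℝ)) := fun k => by
    rw [sx_mul_left, sx_mul_left, map_mul, conj_sx k]; ring
  simp only [e1]
  rw [tsum_mul_left, poisson (mul_ne_zero a1 a2) (PairAb_per n₁ n₂) (PairAb_inv a1 a2 hc) hL, ← mul_assoc,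
    ← tsum_mul_left, ← tsum_mul_left]
  refine tsum_congr fun k => ?_
  have e2 : sx n₂ n₁ * conj (sx n₁ n₂) = sx (-1) n₂ := by
    rw [sx_recip a2 a1, mul_assoc, sx_mul_conj, if_pos ⟨a2, h⟩, mul_one, hc, hs_diag a2]
  have e3 := sx_neg_one_sq a2
  have s1 := gsb_sqrt_sq n₁
  have s2 := gsb_sqrt_sq n₂
  have s3 := gsb_sqrt_ne a1
  have s4 := gsb_sqrt_ne a2
  rw [FT_sx_mul 1 5 a1 a2 h, gs_five k a2, gs_sqfree h₁.2 (by norm_num) k,
    gs_sqfree h₂.2 (by norm_num) k, ← conj_sx, pow_one, e2, nm_mul]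
  simp only [Tm, bet, Ab.gt, map_mul, map_div₀, Complex.conj_ofReal, Complex.conj_conj, pow_one]
  push_cast
  rw [← s1, ← s2]
  field_simp
  rw [e3, mul_one]

/-- `sx_mul_right`, `sx_mul_conj`, `sum_mu_coprime`, `Summable.tsum_finsetSum`, `tsum_dvd`, `gw_mul`,
`poisson_cop` -/
theorem Phi_eq {K : ℝ} (hK : 0 < K) {g n₁ n₂ : O} (hg : Prim g) (h₁ : Osq (g * n₁))
    (h₂ : Osq (g * n₂)) (h : IsCoprime n₁ n₂) (hc : cls n₁ = cls n₂) :
    Phi K (g * n₁) (g * n₂) =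
      ∑ e ∈ pdiv g, mu e * (K / nm e : ℝ) * ∑' h : O, Tm (K / nm e) e h n₁ n₂ := by
  classical
  have b1 := h₁.right hg
  have b2 := h₂.right hg
  have h6 : g ≠ 0 := hg.ne_zero
  set F : O → ℂ := fun k => sx k n₁ * conj (sx k n₂) * (gw K k : ℝ) with hF
  have hs : Summable F := by
    refine summable_mul_gw (Ψ := fun k => sx k n₁ * conj (sx k n₂)) (B := 1) (fun k => ?_) hK
    rw [norm_mul, Complex.norm_conj]
    exact mul_le_one₀ (norm_sx_le _ _) (norm_nonneg _) (norm_sx_le _ _)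
  have e1 : ∀ k : O, sx k (g * n₁) * conj (sx k (g * n₂)) * (gw K k : ℝ) =
      ∑ e ∈ pdiv g, if e ∣ k then mu e * F k else 0 := fun k => by
    have e2 : sx k g * conj (sx k g) = ∑ e ∈ pdiv g, if e ∣ k then mu e else 0 := by
      rw [sx_mul_conj, sum_mu_coprime hg]
      exact if_congr (by rw [and_iff_right h6, isCoprime_comm]) rfl rfl
    calc _ = sx k g * conj (sx k g) * F k := by
          rw [sx_mul_right, sx_mul_right, map_mul, hF]; ring
      _ = _ := by simp only [e2, Finset.sum_mul, ite_mul, zero_mul]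
  simp only [Phi, e1]
  rw [Summable.tsum_finsetSum fun e _ => ?_]
  · refine Finset.sum_congr rfl fun e he => ?_
    have he1 := ((mem_pdiv hg.ne_zero).1 he).1
    have he0 := he1.ne_zero
    rw [tsum_dvd he0, tsum_mul_left, mul_assoc,
      ← poisson_cop (div_pos hK (nm_pos he0)) e b1 b2 h hc]
    simp only [hF, gw_mul he1]
  · refine (hs.mul_left (mu e)).norm.of_norm_bounded fun k => ?_
    split_ifs
    · exact le_rfl
    · rw [norm_zero]; exact norm_nonneg _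

/-- `∏ (1 - 1 / N p)`; `Prim.induction_sqfree`, `sum_pdiv_mul` -/
theorem norm_sum_mu_div_le {g : O} (hg : Osq g) : ‖∑ e ∈ pdiv g, mu e / (nm e : ℂ)‖ ≤ 1 := by
  classical
  obtain ⟨h1, h2⟩ := hg
  refine h1.induction_sqfree (P := fun g => ‖∑ e ∈ pdiv g, mu e / (nm e : ℂ)‖ ≤ 1) h2 ?_ ?_
  · have : pdiv 1 = {1} := by
      ext d
      rw [mem_pdiv one_ne_zero, Finset.mem_singleton]
      exact ⟨fun h => h.1.eq_one_of_isUnit (isUnit_of_dvd_one h.2), fun h => by rw [h]; exact ⟨prim_one, dvd_rfl⟩⟩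
    simp [this, mu_one]
  · intro p m hp hp' hm _ hpm ih
    have hc : IsCoprime p m := (hp.irreducible.coprime_iff_not_dvd).2 hpm
    have hd : pdiv p = {1, p} := by
      ext d
      rw [mem_pdiv hp.ne_zero, Finset.mem_insert, Finset.mem_singleton]
      constructor
      · rintro ⟨hd, hdp⟩
        rcases hp.irreducible.dvd_iff.1 hdp with h | h
        · exact Or.inl (hd.eq_one_of_isUnit h)
        · exact Or.inr (hp'.eq_of_associated hd h).symm
      · rintro (rfl | rfl)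
        exacts [⟨prim_one, one_dvd _⟩, ⟨hp', dvd_rfl⟩]
    have hne : (1 : O) ≠ p := fun h => hp.not_isUnit (h ▸ isUnit_one)
    have key : ∑ e ∈ pdiv (p * m), mu e / (nm e : ℂ) =
        ((1 - 1 / nm p : ℝ) : ℂ) * ∑ e ∈ pdiv m, mu e / (nm e : ℂ) := by
      rw [sum_pdiv_mul hp.ne_zero hm.ne_zero hc, hd, Finset.sum_pair hne, Finset.mul_sum,
        ← Finset.sum_add_distrib]
      refine Finset.sum_congr rfl fun d hd' => ?_
      have hdm := ((mem_pdiv hm.ne_zero).1 hd').2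
      rw [one_mul, mu_mul (hc.of_isCoprime_of_dvd_right hdm), mu_prime hp, nm_mul]
      push_cast
      ring
    rw [key, norm_mul, Complex.norm_real]
    have h2 := two_le_nm hp
    have h3 : 1 / nm p ≤ 1 := by rw [div_le_one (by linarith)]; linarith
    have h4 : 0 ≤ 1 / nm p := by positivity
    rw [Real.norm_of_nonneg (by linarith)]
    exact mul_le_one₀ (by linarith) (norm_nonneg _) ih

end Crest.Agent.R27.Z
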