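import Crest.Agent.R27.Z.PairA

/-!
Row 27, block MAIN (port of `R17/P`): `Phi = diagonal + Mid + negligible`, pointwise in the pair of columns.
Write `n = g n₁`, `n' = g n₂` (`Prim.exists_gcd`), use `Phi_eq`, and split the sum over `h` into
`h = 0`, `h ∈ rows H_e`, `H_e < N h`, with `H_e = len K X T (e, g / e, _) = T X² N e / (K N g²)`.
-/

set_option autoImplicit false

namespace Crest.Agent.R27.Z

open scoped ComplexConjugate
open Crest.Agent.R17 (LN sj sj_false sj_true norm_sj sj_mul)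
open Crest.Agent.R27.Ab

variable [Bd]

open Classical in
theorem PairBa_mu {d g : O} (hd : Prim d) (hg : Prim g) :
    ∑ j ∈ pdiv g, (if d * j ∣ g then mu j else 0) = if d = g then 1 else 0 := by
  by_cases h : d ∣ g
  · obtain ⟨m, hm, rfl⟩ := hd.exists_mul hg h
    have e : (pdiv (d * m)).filter (fun j => d * j ∣ d * m) = pdiv m := by
      ext j
      rw [Finset.mem_filter, mem_pdiv hg.ne_zero, mem_pdiv hm.ne_zero,
        mul_dvd_mul_iff_left hd.ne_zero]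
      exact ⟨fun h => ⟨h.1.1, h.2⟩, fun h => ⟨⟨h.1, h.2.mul_left _⟩, h.2⟩⟩
    rw [← Finset.sum_filter, e, sum_mu_pdiv hm]
    have : d = d * m ↔ m = 1 := by
      rw [eq_comm, mul_right_eq_self₀, or_iff_left hd.ne_zero]
    simp only [this]
  · rw [if_neg (fun e : d = g => h (e ▸ dvd_rfl))]
    exact Finset.sum_eq_zero fun j _ => if_neg fun h' => h ((dvd_mul_right _ _).trans h')

open Classical in
theorem PairBa_mem {g : O} (hg : Osq g) {l : O × O × O} :
    l ∈ (Lab (nm g)).filter (fun l => l.1 * l.2.1 * l.2.2 ∣ g) ↔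
      Prim l.1 ∧ Prim l.2.1 ∧ Prim l.2.2 ∧ l.1 * l.2.1 * l.2.2 ∣ g := by
  rw [Finset.mem_filter, mem_Lab']
  refine ⟨fun h => ⟨h.1.1, h.1.2.1, h.1.2.2.1, h.2⟩, fun ⟨h1, h2, h3, h4⟩ =>
    ⟨⟨h1, h2, h3, (h1.mul h2).mul h3, hg.2.squarefree_of_dvd h4,
      nm_le_of_dvd h4 hg.1.ne_zero⟩, h4⟩⟩

open Classical in
/-- the complete Möbius expansion: labels `(e, f, j) ∈ Lab (N g)` with `e f j ∣ g`.  For `(e, f)` with
`e f ∣ g`: `∑_{j ∣ g / (e f)} mu j = [e f = g]` (`sum_mu_pdiv`). -/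
theorem sum_label {g : O} (hg : Osq g) (F : O → O → ℂ) :
    ∑ l ∈ (Lab (nm g)).filter (fun l => l.1 * l.2.1 * l.2.2 ∣ g), mu l.2.2 * F l.1 l.2.1 =
      ∑ e ∈ pdiv g, F e (dv g e) := by
  have h0 := hg.1.ne_zero
  have e1 : (Lab (nm g)).filter (fun l => l.1 * l.2.1 * l.2.2 ∣ g) =
      (pdiv g ×ˢ pdiv g ×ˢ pdiv g).filter (fun l => l.1 * l.2.1 * l.2.2 ∣ g) := by
    ext l
    rw [PairBa_mem hg]
    simp only [Finset.mem_filter, Finset.mem_product, mem_pdiv h0]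
    refine ⟨fun ⟨h1, h2, h3, h4⟩ => ⟨⟨⟨h1, ((dvd_mul_right _ _).mul_right _).trans h4⟩,
      ⟨h2, ((dvd_mul_left _ _).mul_right _).trans h4⟩, ⟨h3, (dvd_mul_left _ _).trans h4⟩⟩, h4⟩,
      fun h => ⟨h.1.1.1, h.1.2.1.1, h.1.2.2.1, h.2⟩⟩
  rw [e1, Finset.sum_filter, Finset.sum_product]
  refine Finset.sum_congr rfl fun e he => ?_
  obtain ⟨he, hd⟩ := (mem_pdiv h0).1 he
  have hm := mul_dv hd
  have hp : Prim (dv g e) := he.of_mul (hm.symm ▸ hg.1)
  rw [Finset.sum_product]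
  have e2 : ∀ f ∈ pdiv g, (∑ j ∈ pdiv g, if e * f * j ∣ g then mu j * F e f else 0) =
      if dv g e = f then F e f else 0 := by
    intro f hf
    have h1 := PairBa_mu (he.mul ((mem_pdiv h0).1 hf).1) hg.1
    have h2 : e * f = g ↔ dv g e = f :=
      ⟨fun h => mul_left_cancel₀ he.ne_zero (hm.trans h.symm), fun h => h ▸ hm⟩
    simp only [h2] at h1
    calc _ = (∑ j ∈ pdiv g, if e * f * j ∣ g then mu j else 0) * F e f := by
          rw [Finset.sum_mul]
          exact Finset.sum_congr rfl fun j _ => by split_ifs <;> simp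
      _ = _ := by rw [h1]; split_ifs <;> simp
  rw [Finset.sum_congr rfl e2, Finset.sum_ite_eq, if_pos]
  exact (mem_pdiv h0).2 ⟨hp, Dvd.intro_left _ hm⟩

theorem PairBa_dv {d j n : O} (hd : d ≠ 0) (h : d * j ∣ n) : j * dv n (d * j) = dv n d := by
  apply mul_left_cancel₀ hd
  rw [← mul_assoc, mul_dv h, mul_dv ((dvd_mul_right _ _).trans h)]

theorem PairBa_Tm {L : ℝ} (hL : 0 < L) (e : O) (H : ℝ) {d n n' : O} (hd : Prim d)
    (hn : Osq n) (hn' : Osq n') (h1 : d ∣ n) (h2 : d ∣ n') :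
    L * ‖∑ h ∈ rows H, Tm L e h (dv n d) (dv n' d)‖ ≤ cG * (Real.sqrt (nm n) * Real.sqrt (nm n')) := by
  have key : ∀ {n : O}, Osq n → d ∣ n → Osq (dv n d) ∧ nm (dv n d) ≤ nm n := by
    intro n hn h
    have h3 : Osq (dv n d) := by
      refine Osq.right (a := d) ?_ hd
      rwa [mul_dv h]
    exact ⟨h3, nm_le_of_dvd (Dvd.intro_left _ (mul_dv h)) hn.1.ne_zero⟩
  obtain ⟨a1, b1⟩ := key hn h1
  obtain ⟨a2, b2⟩ := key hn' h2
  have p1 := nm_pos a1.1.ne_zero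
  have p2 := nm_pos a2.1.ne_zero
  have q1 := Real.sqrt_pos.2 p1
  have q2 := Real.sqrt_pos.2 p2
  have h3 := (norm_sum_le _ _).trans (Finset.sum_le_sum fun h (_ : h ∈ rows H) => norm_Tm_le L e h a1 a2)
  rw [← Finset.sum_div] at h3
  have h4 := sum_gw_le (K := nm (dv n d) * nm (dv n' d) / L) (by positivity) (A := rows H)
    fun k hk => (mem_rows.1 hk).1.ne_zero
  have hG := cG_pos
  calc _ ≤ L * (cG * (nm (dv n d) * nm (dv n' d) / L) /
        (Real.sqrt (nm (dv n d)) * Real.sqrt (nm (dv n' d)))) := by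
        refine mul_le_mul_of_nonneg_left (h3.trans ?_) hL.le
        gcongr
    _ = cG * (Real.sqrt (nm (dv n d)) * Real.sqrt (nm (dv n' d))) := by
        have s1 := Real.sq_sqrt p1.le
        have s2 := Real.sq_sqrt p2.le
        generalize Real.sqrt (nm (dv n d)) = x at *
        generalize Real.sqrt (nm (dv n' d)) = y at *
        rw [← s1, ← s2]
        field_simp
    _ ≤ _ := by gcongr

omit [Bd] in
theorem PairBa_W {A : ℕ} (hA : 2 ≤ A) {X T N N' D : ℝ} (hX : 0 < X) (hT : 1 ≤ T) (hD : X * T < D)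
    (h : D ≤ N) (h' : D ≤ N') :
    Real.sqrt N * Real.sqrt N' * D ^ 2 ≤ T / T ^ A * (1 + X) ^ 3 * (N / X) ^ A * (N' / X) ^ A := by
  obtain ⟨B, rfl⟩ := Nat.exists_eq_add_of_le' hA
  have T0 : 0 < T := by linarith
  have D0 : 0 < D := lt_trans (by positivity) hD
  have N0 : 0 < N := by linarith
  have N0' : 0 < N' := by linarith
  obtain ⟨v, hv⟩ : ∃ v, v = Real.sqrt N * Real.sqrt N' / X := ⟨_, rfl⟩
  have e1 : Real.sqrt N * Real.sqrt N' = X * v := by rw [hv]; field_simp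
  have e2 : N / X * (N' / X) = v ^ 2 := by
    rw [hv, div_pow, mul_pow, Real.sq_sqrt N0.le, Real.sq_sqrt N0'.le]
    field_simp
  have a1 : D ≤ X * v := by
    rw [← e1]
    calc D = Real.sqrt D * Real.sqrt D := (Real.mul_self_sqrt D0.le).symm
      _ ≤ _ := by gcongr
  have a2 : T ≤ v := le_of_mul_le_mul_left (hD.le.trans a1) hX
  have v0 : 0 < v := by linarith
  rw [mul_assoc _ ((N / X) ^ _), ← mul_pow, e2, e1]
  calc X * v * D ^ 2 ≤ X * v * (X * v) ^ 2 := by gcongr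
    _ = 1 * X ^ 3 * v ^ 3 := by ring
    _ ≤ T ^ B * (1 + X) ^ 3 * v ^ 3 := by
        gcongr
        · exact one_le_pow₀ hT
        · linarith
    _ = T / T ^ (B + 2) * (1 + X) ^ 3 * (v ^ 3 * T ^ (2 * B + 1)) := by field_simp; ring
    _ ≤ T / T ^ (B + 2) * (1 + X) ^ 3 * (v ^ 3 * v ^ (2 * B + 1)) := by gcongr
    _ = _ := by ring

open Classical in
/-- the near rows: `sum_label` with
`F e f = mu e (K / N e) ∑_{h ∈ rows (len K X T (e, f, 1))} Tm (K / N e) e h (dv n (e f)) (dv n' (e f))`;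
the labels with `N(e f j) ≤ X T` give `Mid` (`d ∣ n ∧ d ∣ n' ↔ d ∣ g`,
`j * dv n (e f j) = dv n (e f)`).  For the others `PairBa_Tm`, `PairBa_W`, `sum_Lab_le` with `s = 2`. -/
theorem near_rows (A : ℕ) (hA : 2 ≤ A) : ∃ C : ℝ, 0 < C ∧ ∀ (K X T : ℝ) (g n₁ n₂ : O), 0 < K → 0 < X →
    1 ≤ T → Prim g → Osq (g * n₁) → Osq (g * n₂) → IsCoprime n₁ n₂ →
    ‖∑ e ∈ pdiv g, mu e * (K / nm e : ℝ) *
        ∑ h ∈ rows (len K X T (e, dv g e, 1)), Tm (K / nm e) e h n₁ n₂ -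
      Mid K X T (g * n₁) (g * n₂)‖ ≤
      C * (T / T ^ A * (1 + X) ^ 3) * (nm (g * n₁) / X) ^ A * (nm (g * n₂) / X) ^ A := by
  obtain ⟨C, hC, hS⟩ := sum_Lab_le (s := 2) one_lt_two
  have hG := cG_pos
  refine ⟨cG * C, by positivity, fun K X T g n₁ n₂ hK hX hT hg h₁ h₂ hc => ?_⟩
  have hg' : Osq g := h₁.left hg
  have g0 := hg.ne_zero
  set F : O → O → ℂ := fun e f => mu e * (K / nm e : ℝ) *
    ∑ h ∈ rows (len K X T (e, f, 1)), Tm (K / nm e) e h (dv (g * n₁) (e * f)) (dv (g * n₂) (e * f))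
    with hF
  set S := (Lab (nm g)).filter (fun l => l.1 * l.2.1 * l.2.2 ∣ g) with hSdef
  have e1 : ∑ e ∈ pdiv g, mu e * (K / nm e : ℝ) *
      ∑ h ∈ rows (len K X T (e, dv g e, 1)), Tm (K / nm e) e h n₁ n₂ =
      ∑ l ∈ S, mu l.2.2 * F l.1 l.2.1 := by
    rw [hSdef, sum_label hg' F]
    refine Finset.sum_congr rfl fun e he => ?_
    simp only [hF, mul_dv ((mem_pdiv g0).1 he).2, dv_mul g0]
  have hdv : ∀ d : O, (d ∣ g * n₁ ∧ d ∣ g * n₂) ↔ d ∣ g := by
    intro d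
    refine ⟨fun ⟨a1, a2⟩ => ?_, fun h => ⟨h.mul_right _, h.mul_right _⟩⟩
    obtain ⟨u, v, huv⟩ := hc
    have : g = u * (g * n₁) + v * (g * n₂) := by linear_combination (-g) * huv
    rw [this]
    exact dvd_add (a1.mul_left _) (a2.mul_left _)
  have e2 : Mid K X T (g * n₁) (g * n₂) =
      ∑ l ∈ S.filter (fun l => nm (l.1 * l.2.1 * l.2.2) ≤ X * T), mu l.2.2 * F l.1 l.2.1 := by
    have e3 : S.filter (fun l => nm (l.1 * l.2.1 * l.2.2) ≤ X * T) =
        (Lab (X * T)).filter (fun l => l.1 * l.2.1 * l.2.2 ∣ g) := by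
      ext l
      rw [Finset.mem_filter, hSdef, PairBa_mem hg', Finset.mem_filter, mem_Lab']
      refine ⟨fun ⟨⟨h1, h2, h3, h4⟩, h5⟩ => ⟨⟨h1, h2, h3, (h1.mul h2).mul h3,
        hg'.2.squarefree_of_dvd h4, h5⟩, h4⟩,
        fun ⟨⟨h1, h2, h3, h5⟩, h4⟩ => ⟨⟨h1, h2, h3, h4⟩, h5.2.2⟩⟩
    rw [e3, Finset.sum_filter, Mid]
    refine Finset.sum_congr rfl fun l hl => ?_
    obtain ⟨h1, h2, h3, -⟩ := mem_Lab'.1 hl
    simp only [hdv]
    split_ifs with h4
    · rw [PairBa_dv (h1.mul h2).ne_zero (h4.mul_right n₁),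
        PairBa_dv (h1.mul h2).ne_zero (h4.mul_right n₂), ← Finset.mul_sum]
      simp only [hF]
      have : len K X T (l.1, l.2.1, 1) = len K X T l := rfl
      rw [this]
      ring
    · simp
  rw [e1, e2, ← Finset.sum_filter_add_sum_filter_not S (fun l => nm (l.1 * l.2.1 * l.2.2) ≤ X * T),
    add_sub_cancel_left]
  set W := T / T ^ A * (1 + X) ^ 3 * (nm (g * n₁) / X) ^ A * (nm (g * n₂) / X) ^ A with hW
  have T0 : 0 < T := by linarith
  have W0 : 0 ≤ W := by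
    have := nm_nonneg (g * n₁)
    have := nm_nonneg (g * n₂)
    positivity
  have hb : ∀ l ∈ S.filter (fun l => ¬ nm (l.1 * l.2.1 * l.2.2) ≤ X * T),
      ‖mu l.2.2 * F l.1 l.2.1‖ ≤
        cG * W * (nm l.1 ^ (-2 : ℝ) * nm l.2.1 ^ (-2 : ℝ) * nm l.2.2 ^ (-2 : ℝ)) := by
    rintro ⟨e, f, j⟩ hl
    obtain ⟨hl, hlt⟩ := Finset.mem_filter.1 hl
    obtain ⟨h1, h2, h3, h4⟩ := (PairBa_mem hg').1 hl
    simp only at h1 h2 h3 h4 hlt ⊢
    have pe := nm_pos h1.ne_zero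
    have pf := nm_pos h2.ne_zero
    have pj := nm_pos h3.ne_zero
    have hd : e * f ∣ g := (dvd_mul_right _ _).trans h4
    have hsum := PairBa_Tm (L := K / nm e) (by positivity) e (len K X T (e, f, 1)) (h1.mul h2) h₁ h₂
      (hd.mul_right _) (hd.mul_right _)
    have d1 : nm (e * f * j) ≤ nm (g * n₁) := nm_le_of_dvd (h4.mul_right _) h₁.1.ne_zero
    have d2 : nm (e * f * j) ≤ nm (g * n₂) := nm_le_of_dvd (h4.mul_right _) h₂.1.ne_zero
    have hW2 := PairBa_W hA hX hT (not_le.1 hlt) d1 d2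
    rw [← hW, nm_mul (e * f), nm_mul e] at hW2
    calc ‖mu j * F e f‖ ≤ 1 * (1 * (cG * (Real.sqrt (nm (g * n₁)) * Real.sqrt (nm (g * n₂))))) := by
          simp only [hF, norm_mul, Complex.norm_real, Real.norm_of_nonneg (div_pos hK pe).le, mul_assoc]
          have := norm_mu_le j
          have := norm_mu_le e
          gcongr
      _ = cG * (Real.sqrt (nm (g * n₁)) * Real.sqrt (nm (g * n₂)) * (nm e * nm f * nm j) ^ 2) *
            (nm e ^ (-2 : ℝ) * nm f ^ (-2 : ℝ) * nm j ^ (-2 : ℝ)) := by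
          simp only [Real.rpow_neg pe.le, Real.rpow_neg pf.le, Real.rpow_neg pj.le, Real.rpow_two]
          field_simp
      _ ≤ _ := by gcongr
  refine (norm_sum_le _ _).trans ((Finset.sum_le_sum hb).trans ?_)
  rw [← Finset.mul_sum]
  calc _ ≤ cG * W * C := mul_le_mul_of_nonneg_left (hS _ fun l hl => by
        obtain ⟨h1, h2, h3, -⟩ := (PairBa_mem hg').1 (Finset.mem_filter.1 hl).1
        exact ⟨h1, h2, h3⟩) (by positivity)
    _ = _ := by rw [hW]; ring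

open Classical in
/-- the far rows: `norm_Tm_le`, `gw_far` with `L = N e N n₁ N n₂ / K`, `L / H_e = N n N n' / (T X²)`,
`(K / N e) H_e = T X² / N g² ≤ T X² / N e²`, `summable_nm_rpow` -/
theorem far_rows (A : ℕ) (hA : 2 ≤ A) : ∃ C : ℝ, 0 < C ∧ ∀ (K X T : ℝ) (g n₁ n₂ : O), 0 < K → 0 < X →
    1 ≤ T → Prim g → Osq (g * n₁) → Osq (g * n₂) →
    ‖∑ e ∈ pdiv g, mu e * (K / nm e : ℝ) *
        ∑' h : O, if len K X T (e, dv g e, 1) < nm h then Tm (K / nm e) e h n₁ n₂ else 0‖ ≤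
      C * (T / T ^ A * (1 + X) ^ 3) * (nm (g * n₁) / X) ^ A * (nm (g * n₂) / X) ^ A := by
  obtain ⟨C, hC, hfar⟩ := gw_far A hA
  have hS := summable_nm_rpow (σ := 2) (by norm_num)
  have hnn : ∀ d : O, 0 ≤ nm d ^ (-2 : ℝ) := fun d => Real.rpow_nonneg (nm_nonneg d) _
  set S : ℝ := ∑' n : Pr, nm n ^ (-2 : ℝ) with hSdef
  have hS0 : 0 ≤ S := tsum_nonneg fun n => hnn n
  refine ⟨C * (S + 1), by positivity, fun K X T g n₁ n₂ hK hX hT hg h₁ h₂ => ?_⟩
  have ho₁ := h₁.right hg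
  have ho₂ := h₂.right hg
  have hN₁ := one_le_nm ho₁.1.ne_zero
  have hN₂ := one_le_nm ho₂.1.ne_zero
  have hT0 : 0 < T := by linarith
  set W : ℝ := (T / T ^ A * (1 + X) ^ 3) * (nm (g * n₁) / X) ^ A * (nm (g * n₂) / X) ^ A with hW
  have hW0 : 0 ≤ W := by
    have := nm_nonneg (g * n₁)
    have := nm_nonneg (g * n₂)
    positivity
  have key : ∀ e ∈ pdiv g, ‖mu e * (K / nm e : ℝ) *
      ∑' h : O, if len K X T (e, dv g e, 1) < nm h then Tm (K / nm e) e h n₁ n₂ else 0‖ ≤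
      C * W * nm e ^ (-2 : ℝ) := by
    intro e he
    obtain ⟨hep, hed⟩ := (mem_pdiv hg.ne_zero).1 he
    have hgf := mul_dv hed
    set f := dv g e with hf
    have hf0 : f ≠ 0 := fun h => hg.ne_zero (by rw [← hgf, h, mul_zero])
    have hNe := one_le_nm hep.ne_zero
    have hNf := one_le_nm hf0
    have hNg : nm g = nm e * nm f := by rw [← hgf, nm_mul]
    set H : ℝ := len K X T (e, f, 1) with hH
    have hH' : H = T * X ^ 2 / (K * nm e * nm f ^ 2) := rfl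
    set L : ℝ := nm n₁ * nm n₂ / (K / nm e) with hL
    have hH0 : 0 < H := by rw [hH']; positivity
    have hL0 : 0 < L := by positivity
    have hsum : Summable fun h : O => if H < nm h then gw L h else 0 := by
      refine Summable.of_nonneg_of_le (fun h => ?_) (fun h => ?_) (summable_gw hL0)
      · split_ifs
        exacts [(gw_nonneg _ _), le_rfl]
      · split_ifs
        exacts [le_rfl, (gw_nonneg _ _)]
    have h1 : ‖∑' h : O, if H < nm h then Tm (K / nm e) e h n₁ n₂ else 0‖ ≤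
        C * H * (L / H) ^ A := by
      refine (tsum_of_norm_bounded hsum.hasSum fun h => ?_).trans (hfar L H hL0 hH0)
      split_ifs
      · refine (norm_Tm_le _ e h ho₁ ho₂).trans (div_le_self (gw_nonneg _ _) ?_)
        exact one_le_mul_of_one_le_of_one_le (Real.one_le_sqrt.2 hN₁) (Real.one_le_sqrt.2 hN₂)
      · simp
    have h2 : L / H = (nm (g * n₁) / X) * (nm (g * n₂) / X) / T := by
      rw [hL, hH', nm_mul, nm_mul, hNg]
      field_simp
    have h3 : K / nm e * H ≤ T * (1 + X) ^ 3 * nm e ^ (-2 : ℝ) := by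
      have e1 : K / nm e * H = T * (X ^ 2 / nm f ^ 2) * (nm e ^ 2)⁻¹ := by
        rw [hH']; field_simp
      rw [e1, Real.rpow_neg (nm_nonneg e), Real.rpow_two]
      have : X ^ 2 / nm f ^ 2 ≤ (1 + X) ^ 3 :=
        (div_le_self (by positivity) (one_le_pow₀ hNf)).trans (by nlinarith [pow_pos hX 3])
      gcongr
    rw [norm_mul, norm_mul, Complex.norm_real, Real.norm_of_nonneg (by positivity)]
    have hxy : 0 ≤ (L / H) ^ A := by positivity
    calc _ ≤ 1 * (K / nm e) * (C * H * (L / H) ^ A) := by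
          gcongr
          exact norm_mu_le e
      _ = C * (L / H) ^ A * (K / nm e * H) := by ring
      _ ≤ C * (L / H) ^ A * (T * (1 + X) ^ 3 * nm e ^ (-2 : ℝ)) := by gcongr
      _ = _ := by
          rw [h2, hW, div_pow, mul_pow]
          ring
  refine (norm_sum_le _ _).trans ((Finset.sum_le_sum key).trans ?_)
  rw [← Finset.mul_sum]
  have h4 : ∑ e ∈ pdiv g, nm e ^ (-2 : ℝ) ≤ S + 1 :=
    (sum_le_tsum_Pr (f := fun n => nm n ^ (-2 : ℝ)) hS (fun d _ => hnn d)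
      fun d hd => ((mem_pdiv hg.ne_zero).1 hd).1).trans (by linarith)
  calc _ ≤ C * W * (S + 1) := by gcongr
    _ = _ := by rw [hW]; ring

open Classical in
theorem PairBb_split {F : O → ℂ} (hF : Summable F) (hF0 : ∀ h, h ≠ 0 → ¬ Prim h → F h = 0) {H : ℝ}
    (hH : 0 ≤ H) : ∑' h, F h = F 0 + (∑ h ∈ rows H, F h + ∑' h, if H < nm h then F h else 0) := by
  have h0 : (0 : O) ∉ rows H := fun h => (mem_rows.1 h).1.ne_zero rfl
  rw [← add_assoc, ← Finset.sum_insert h0, ← hF.sum_add_tsum_compl (s := insert 0 (rows H)),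
    tsum_subtype]
  congr 2
  funext h
  by_cases hh : H < nm h
  · rw [if_pos hh, Set.indicator_of_mem]
    simp only [Set.mem_compl_iff, Finset.mem_coe, Finset.mem_insert, mem_rows, not_or, not_and,
      not_le]
    refine ⟨fun h' => ?_, fun _ => hh⟩
    rw [h', nm_zero] at hh
    linarith
  · rw [if_neg hh, Set.indicator_apply_eq_zero]
    simp only [Set.mem_compl_iff, Finset.mem_coe, Finset.mem_insert, mem_rows, not_or, not_and]
    exact fun h' => hF0 h h'.1 fun hp => h'.2 hp (not_lt.1 hh)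

open Classical in
/-- `Phi_eq`, `Tm_zero`, `norm_sum_mu_div_le`, `near_rows`, `far_rows` -/
theorem pair_decomp (A : ℕ) (hA : 2 ≤ A) : ∃ C : ℝ, 0 < C ∧ ∀ (K X T : ℝ) (n n' : O), 0 < K → 0 < X →
    1 ≤ T → Osq n → Osq n' → cls n = cls n' →
    ‖Phi K n n' - Mid K X T n n'‖ ≤ (if n = n' then w0 * K else 0) +
      C * (T / T ^ A * (1 + X) ^ 3) * (nm n / X) ^ A * (nm n' / X) ^ A := by
  obtain ⟨C₁, hC₁, hnear⟩ := near_rows A hA
  obtain ⟨C₂, hC₂, hfar⟩ := far_rows A hA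
  refine ⟨C₁ + C₂, by positivity, fun K X T n n' hK hX hT hn hn' hcl => ?_⟩
  obtain ⟨g, n₁, n₂, hg, -, rfl, rfl, hc⟩ := hn.1.exists_gcd n'
  have ho₁ := hn.right hg
  have ho₂ := hn'.right hg
  have h1 := hnear K X T g n₁ n₂ hK hX hT hg hn hn' hc
  have h2 := hfar K X T g n₁ n₂ hK hX hT hg hn hn'
  have hsplit : ∀ e ∈ pdiv g, mu e * (K / nm e : ℝ) * ∑' h : O, Tm (K / nm e) e h n₁ n₂ =
      (K * if n₁ = 1 ∧ n₂ = 1 then (w0 : ℂ) else 0) * (mu e / (nm e : ℂ)) +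
      (mu e * (K / nm e : ℝ) * ∑ h ∈ rows (len K X T (e, dv g e, 1)), Tm (K / nm e) e h n₁ n₂ +
      mu e * (K / nm e : ℝ) * ∑' h : O,
        if len K X T (e, dv g e, 1) < nm h then Tm (K / nm e) e h n₁ n₂ else 0) := by
    intro e he
    have hNe := nm_pos ((mem_pdiv hg.ne_zero).1 he).1.ne_zero
    have hH : 0 ≤ len K X T (e, dv g e, 1) := by
      have := nm_nonneg (dv g e)
      unfold len
      positivity
    rw [PairBb_split (summable_Tm (by positivity) e ho₁ ho₂)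
      (fun h h0 hp => by rw [Tm, gw_of_not _ h0 hp]; simp) hH, Tm_zero _ e ho₁ ho₂]
    push_cast
    ring
  rw [Phi_eq hK hg hn hn' hc (cls_cancel hg.ne_zero ho₁.1.ne_zero ho₂.1.ne_zero hcl), Finset.sum_congr rfl hsplit, Finset.sum_add_distrib,
    Finset.sum_add_distrib, ← Finset.mul_sum]
  have h0 : ‖((K : ℂ) * if n₁ = 1 ∧ n₂ = 1 then (w0 : ℂ) else 0) * ∑ e ∈ pdiv g, mu e / (nm e : ℂ)‖ ≤
      if g * n₁ = g * n₂ then w0 * K else 0 := by
    have hw : 0 ≤ w0 * K := (mul_pos w0_pos hK).le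
    by_cases h : n₁ = 1 ∧ n₂ = 1
    · rw [if_pos h, if_pos (by rw [h.1, h.2]), ← Complex.ofReal_mul, mul_comm K, norm_mul, Complex.norm_real,
        Real.norm_of_nonneg hw]
      exact mul_le_of_le_one_right hw (norm_sum_mu_div_le (hn.left hg))
    · rw [if_neg h, mul_zero, zero_mul, norm_zero]
      split_ifs
      exacts [hw, le_rfl]
  rw [add_sub_assoc, add_sub_right_comm]
  refine (norm_add_le _ _).trans (add_le_add h0 ((norm_add_le _ _).trans ?_))
  refine (add_le_add h1 h2).trans (le_of_eq ?_)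
  ring

end Crest.Agent.R27.Z
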